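import Vale.Agent.P141.H548.LagC

/-!
# P141, line (A), increasing part: the kinds of numbers of the moving weight, every lag

`kinds` : the forms `d W⁻¹ d`, `e`, `d d`, `e e` of the scale `a` on a vector; `kinds_le` : all of
them below the charge `chg`; `kinds_cls`, `kindsL` : class data, every lag, times `k` and `k + 1`;
`en_cls'`, `enL'` : energies of the times `k` and `k + 1` at the scale `a ≥ k`.
-/

namespace Vale.Agent.P141.H548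

open Finset Matrix
open Vale.Agent.P141.PL (Pt iv ix cx mem_iv)
open Vale.Agent.P141.PL.H315 (Tri)
open Vale.Agent.P141.H48 (US ES BSl)
open Vale.Agent.P141.H305 (ClsM kapM)
open Vale.Agent.P141.H401 (StQ cA cb mC)
open Vale.Agent.P141.H677 (KT GT rt cP tr_T kF)
open Vale.Agent.P141.H652 (eb ah)
open Vale.Agent.P141.H505.Sk1 (eT eM dTh)
open Vale.Agent.P141.H44.Ti (At Cs Ww ah')
open Vale.Agent.P141.H408
open Vale.Agent.P141.H808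

noncomputable section

open scoped Classical

set_option linter.unusedVariables false

section fam

variable {ι : Type} [Fintype ι] [DecidableEq ι]

/-- the move of the scale `a` at `(x1, z)` -/
abbrev dN (p : H401.Num) (s r : ℝ) (o : ℤ) (K : ℕ) (x : Pt) (u : ℤ → ℤ → ι → ℝ) (x0 : ℤ) (a : ℕ)
    (x1 z : ℤ) : Matrix ι ι ℝ :=
  ah (p.lam s r) K (cx K x).2.1 (KT (p.lam s r) u x1) (o - 2) x0 x1 a (ix (a + 1) z)

/-- the drift of the scale `a` at `(x1, z)` -/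
abbrev eN (p : H401.Num) (s r : ℝ) (o : ℤ) (K : ℕ) (x : Pt) (u : ℤ → ℤ → ι → ℝ) (x0 : ℤ) (a : ℕ)
    (x1 z : ℤ) : Matrix ι ι ℝ :=
  eb (p.lam s r) K (cx K x).2.1 (KT (p.lam s r) u x1) (o - 2) x0 x1 (a + 1) (ix (a + 1) z)

/-- the weight of the parent at `(x1, z)` -/
abbrev wN (p : H401.Num) (s r : ℝ) (o : ℤ) (K : ℕ) (x : Pt) (u : ℤ → ℤ → ι → ℝ) (x0 : ℤ) (a : ℕ)
    (x1 z : ℤ) : Matrix ι ι ℝ := thS p s r o K x u x0 x1 (a + 1) (ix (a + 1) z)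

/-- the kinds of numbers of the scale `a` -/
def kinds (p : H401.Num) (s r : ℝ) (o : ℤ) (K : ℕ) (x : Pt) (u : ℤ → ℤ → ι → ℝ) (x0 : ℤ) (a : ℕ)
    (x1 z : ℤ) (w : ι → ℝ) : ℝ :=
  w ⬝ᵥ (dN p s r o K x u x0 a x1 z * (wN p s r o K x u x0 a x1 z)⁻¹ *
    dN p s r o K x u x0 a x1 z) *ᵥ w +
  w ⬝ᵥ eN p s r o K x u x0 a x1 z *ᵥ w +
  w ⬝ᵥ (dN p s r o K x u x0 a x1 z * dN p s r o K x u x0 a x1 z) *ᵥ w +
  w ⬝ᵥ (eN p s r o K x u x0 a x1 z * eN p s r o K x u x0 a x1 z) *ᵥ w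

omit [DecidableEq ι] in
theorem form_conj {d A : Matrix ι ι ℝ} (hd : dᵀ = d) (w : ι → ℝ) :
    w ⬝ᵥ (d * A * d) *ᵥ w = (d *ᵥ w) ⬝ᵥ A *ᵥ (d *ᵥ w) := by
  rw [← mulVec_mulVec, ← mulVec_mulVec, dotProduct_mulVec, ← mulVec_transpose, hd]

omit [DecidableEq ι] in
theorem form_sq {d : Matrix ι ι ℝ} (hd : dᵀ = d) (w : ι → ℝ) :
    w ⬝ᵥ (d * d) *ᵥ w = (d *ᵥ w) ⬝ᵥ (d *ᵥ w) := by
  rw [← mulVec_mulVec, dotProduct_mulVec, ← mulVec_transpose, hd]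

theorem beI_le_one {p : H401.Num} (ht : 0 < p.t) (ht1 : p.t ≤ 1) (he0 : 0 ≤ p.e0) {r : ℝ}
    (hr : 1 ≤ r) : beI p r ≤ 1 := by
  have hr0 : 0 < r := by linarith
  have hy1 : p.t / r ≤ 1 := by
    rw [div_le_one hr0]
    linarith
  exact Real.rpow_le_one (div_pos ht hr0).le hy1 (by positivity)

theorem dN_symm {p : H401.Num} (ht : 0 < p.t) {s r : ℝ} (hs : 0 < s) (hr : 1 ≤ r) (o : ℤ)
    (K : ℕ) (x : Pt) (u : ℤ → ℤ → ι → ℝ) (x0 : ℤ) (a : ℕ) (x1 z : ℤ) :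
    (dN p s r o K x u x0 a x1 z)ᵀ = dN p s r o K x u x0 a x1 z :=
  H447.MI_symm (S := (cx K x).2.1) (c := o - 2) (x0 := x0)
    (fun x1 => tr_T (H401.Num.lam_pos (p := p) ht hs hr) K u x1) x1 (a + 1) (ix (a + 1) z)

theorem eN_symm {p : H401.Num} (ht : 0 < p.t) {s r : ℝ} (hs : 0 < s) (hr : 1 ≤ r) (o : ℤ)
    (K : ℕ) (x : Pt) (u : ℤ → ℤ → ι → ℝ) (x0 : ℤ) (a : ℕ) (x1 z : ℤ) :
    (eN p s r o K x u x0 a x1 z)ᵀ = eN p s r o K x u x0 a x1 z :=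
  H447.EI_symm (S := (cx K x).2.1) (c := o - 2) (x0 := x0)
    (fun x1 => tr_T (H401.Num.lam_pos (p := p) ht hs hr) K u x1) x1 (a + 1) (ix (a + 1) z)

theorem zm_nonneg {p : H401.Num} (ht : 0 < p.t) {s r : ℝ} (hs : 0 < s) (hr : 1 ≤ r) (o : ℤ)
    (K : ℕ) (x : Pt) (u : ℤ → ℤ → ι → ℝ) (x0 : ℤ) (a : ℕ) (x1 z : ℤ) (w : ι → ℝ) :
    0 ≤ w ⬝ᵥ (dN p s r o K x u x0 a x1 z * (wN p s r o K x u x0 a x1 z)⁻¹ *
      dN p s r o K x u x0 a x1 z) *ᵥ w := by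
  rw [form_conj (dN_symm ht hs hr o K x u x0 a x1 z)]
  exact form_nonneg (thS_pd ht hs hr o K x u x0 x1 (a + 1) (ix (a + 1) z)).inv.posSemidef _

theorem ze_nonneg {p : H401.Num} (ht : 0 < p.t) {s r : ℝ} (hs : 0 < s) (hr : 1 ≤ r) (o : ℤ)
    (K : ℕ) (x : Pt) (u : ℤ → ℤ → ι → ℝ) (x0 : ℤ) (a : ℕ) (x1 z : ℤ) (w : ι → ℝ) :
    0 ≤ w ⬝ᵥ eN p s r o K x u x0 a x1 z *ᵥ w :=
  form_nonneg (H652.eb_psd (M := (cx K x).2.1)
    (tr_T (H401.Num.lam_pos (p := p) ht hs hr) K u x1) (o - 2) x0 x1 (a + 1) (ix (a + 1) z)) w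

theorem zd_nonneg {p : H401.Num} (ht : 0 < p.t) {s r : ℝ} (hs : 0 < s) (hr : 1 ≤ r) (o : ℤ)
    (K : ℕ) (x : Pt) (u : ℤ → ℤ → ι → ℝ) (x0 : ℤ) (a : ℕ) (x1 z : ℤ) (w : ι → ℝ) :
    0 ≤ w ⬝ᵥ (dN p s r o K x u x0 a x1 z * dN p s r o K x u x0 a x1 z) *ᵥ w := by
  rw [form_sq (dN_symm ht hs hr o K x u x0 a x1 z)]
  exact H447.dot_self_nonneg _

theorem zq_nonneg {p : H401.Num} (ht : 0 < p.t) {s r : ℝ} (hs : 0 < s) (hr : 1 ≤ r) (o : ℤ)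
    (K : ℕ) (x : Pt) (u : ℤ → ℤ → ι → ℝ) (x0 : ℤ) (a : ℕ) (x1 z : ℤ) (w : ι → ℝ) :
    0 ≤ w ⬝ᵥ (eN p s r o K x u x0 a x1 z * eN p s r o K x u x0 a x1 z) *ᵥ w := by
  rw [form_sq (eN_symm ht hs hr o K x u x0 a x1 z)]
  exact H447.dot_self_nonneg _

/-- **All kinds are below the charge.** -/
theorem kinds_le {p : H401.Num} (ht : 0 < p.t) (ht1 : p.t ≤ 1) (he0 : 0 ≤ p.e0) {s r : ℝ}
    (hs : 0 < s) (hr : 1 ≤ r) (o : ℤ) (K : ℕ) (x : Pt) (u : ℤ → ℤ → ι → ℝ) (x0 : ℤ) (a : ℕ)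
    (x1 z : ℤ) (w : ι → ℝ) :
    kinds p s r o K x u x0 a x1 z w ≤ chg p s r o K x u x0 a x1 z w := by
  have hl : 0 < p.lam s r := H401.Num.lam_pos (p := p) ht hs hr
  have hbe : 0 < beI p r := Real.rpow_pos_of_pos (div_pos ht (by linarith)) _
  have hb1 : 1 ≤ (beI p r)⁻¹ := (one_le_inv₀ hbe).2 (beI_le_one ht ht1 he0 hr)
  have hT : ∀ x1, H420.Tr (p.lam s r) K (GT u x1) (KT (p.lam s r) u x1) := fun x1 =>
    tr_T hl K u x1
  have h1 : w ⬝ᵥ (dN p s r o K x u x0 a x1 z * (wN p s r o K x u x0 a x1 z)⁻¹ *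
      dN p s r o K x u x0 a x1 z) *ᵥ w ≤ (beI p r)⁻¹ *
      ((dN p s r o K x u x0 a x1 z *ᵥ w) ⬝ᵥ (dN p s r o K x u x0 a x1 z *ᵥ w)) := by
    rw [form_conj (dN_symm ht hs hr o K x u x0 a x1 z)]
    exact H447.inv_form_le hbe (H447.WI_ge (S := (cx K x).2.1) (c := o - 2) (x0 := x0) hT x1
      (a + 1) (ix (a + 1) z)) _
  have h2 : (eN p s r o K x u x0 a x1 z *ᵥ w) ⬝ᵥ (eN p s r o K x u x0 a x1 z *ᵥ w) ≤
      2 * (w ⬝ᵥ eN p s r o K x u x0 a x1 z *ᵥ w) :=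
    H447.eb_sq (S := (cx K x).2.1) (c := o - 2) (x0 := x0) hT x1 a (ix (a + 1) z) w
  have h3 : 0 ≤ (dN p s r o K x u x0 a x1 z *ᵥ w) ⬝ᵥ (dN p s r o K x u x0 a x1 z *ᵥ w) :=
    H447.dot_self_nonneg _
  have h4 := ze_nonneg ht hs hr o K x u x0 a x1 z w
  have h5 := mul_le_mul_of_nonneg_right hb1 h3
  have h6 := mul_le_mul_of_nonneg_right hb1 h4
  have h7 : 0 ≤ (beI p r)⁻¹ * ((dN p s r o K x u x0 a x1 z *ᵥ w) ⬝ᵥ
      (dN p s r o K x u x0 a x1 z *ᵥ w)) := by positivity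
  have h8 : 0 ≤ (beI p r)⁻¹ * (w ⬝ᵥ eN p s r o K x u x0 a x1 z *ᵥ w) :=
    mul_nonneg (by positivity) h4
  unfold kinds chg
  rw [form_sq (dN_symm ht hs hr o K x u x0 a x1 z), form_sq (eN_symm ht hs hr o K x u x0 a x1 z)]
  unfold dN eN at *
  linarith

/-- **All kinds, class data, lag `q`, times `k` and `k + 1`.** -/
theorem kinds_cls {p : H401.Num} {s r ez cP P : ℝ} (ht : 0 < p.t) (ht1 : p.t ≤ 1)
    (he0 : 0 ≤ p.e0) (hs : 0 < s) (hr : 1 ≤ r)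
    (hez : 0 < ez) (hP : 0 ≤ P) {n K : ℕ} (hK : K ≤ n) {F2 : ℕ → Pt → ℝ}
    {Q : ℕ → Pt → Prop} (h2 : BSl n ez cP F2 Q) {x : Pt} {U : Tri} {g : ℤ → ℤ → ℝ}
    {u v : ℤ → ℤ → ι → ℝ} (C : H305.Cls K x s r P U g u v) (o : ℤ) (q : ℕ) {j : ℕ}
    (hj : j ≤ 1) :
    ∑ t ∈ rt (cx K x), ∑ x0 ∈ iv K t, ∑ k ∈ range (K - q),
      ∑ x1 ∈ iv K (cx K x).1, ∑ z ∈ iv K (cx K x).2.2,
        kinds p s r o K x u x0 (k + q) x1 z (cS p ez U K v F2 x0 (k + j) x1 z) ≤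
      3 * (40976 * (beI p r)⁻¹) * (P / p.lam s r) * (s * 8 ^ K) :=
  (sum_le_sum fun t _ => sum_le_sum fun x0 _ => sum_le_sum fun k _ => sum_le_sum fun x1 _ =>
    sum_le_sum fun z _ => kinds_le (p := p) ht ht1 he0 hs hr o K x u x0 (k + q) x1 z _).trans
    (var_cls ht hs hr hez hP hK h2 C o q hj)

/-- cells one scale below -/
theorem cell_dn {W : ℤ → ℝ} (hW0 : ∀ x, 0 ≤ W x) {e : ℝ} {k : ℕ}
    (hW : ∀ j, ∑ x ∈ iv (k + 1) j, W x ≤ e * 2 ^ (k + 1)) (j : ℤ) :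
    ∑ x ∈ iv k j, W x ≤ 2 * e * 2 ^ k := by
  have h1 : ∑ x ∈ iv k j, W x ≤ ∑ x ∈ iv (k + 1) (j / 2), W x := by
    refine sum_le_sum_of_subset_of_nonneg (fun x hx => ?_) fun x _ _ => hW0 x
    rw [mem_iv] at hx ⊢
    have e1 : ix (k + 1) x = ix k x / 2 := by
      unfold PL.ix
      rw [pow_succ, Int.ediv_ediv_of_nonneg (by positivity)]
    rw [e1, hx]
  refine h1.trans ((hW (j / 2)).trans (le_of_eq ?_))
  rw [pow_succ]
  ring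

/-- the weight of the time `k + j` on the cells of the scale `k` -/
theorem wl_cell' {p : H401.Num} {ez cP : ℝ} (hez : 0 < ez) (U : Tri) {n K : ℕ} (hK : K ≤ n)
    {F2 : ℕ → Pt → ℝ} {Q : ℕ → Pt → Prop} (h : BSl n ez cP F2 Q) (x1 z : ℤ) {k j : ℕ}
    (hj : j ≤ 1) (hk : k ≤ K) (i : ℤ) :
    ∑ x0 ∈ iv k i, wl p ez U K F2 x1 z (min (k + j) K) x0 ≤ 2 * 2 ^ k := by
  have h0 := wl_cell (p := p) hez U hK h x1 z
  have h1 : min (k + j) K = k ∨ min (k + j) K = k + 1 ∧ k + 1 ≤ K := by omega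
  rcases h1 with h1 | ⟨h1, h2⟩
  · rw [h1]
    refine (h0 k hk i).trans ?_
    have : (0 : ℝ) < 2 ^ k := by positivity
    linarith
  · rw [h1]
    have h3 := cell_dn (W := fun x0 => wl p ez U K F2 x1 z (k + 1) x0)
      (fun x0 => wl_nonneg hez U K F2 x1 z (k + 1) x0) (h0 (k + 1) h2) i
    linarith

/-- the slot of any time -/
theorem cS_min (p : H401.Num) (ez : ℝ) (U : Tri) (K : ℕ) (v : ℤ → ℤ → ι → ℝ)
    (F2 : ℕ → Pt → ℝ) (x0 : ℤ) (k : ℕ) (x1 z : ℤ) :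
    cS p ez U K v F2 x0 k x1 z =
      ((√ez)⁻¹ * kF p.Lm U.2.1 K F2 (min k K) (x0, x1, z)) • v x1 z := by
  rw [← cS_at p ez U K v F2 x0 (min_le_right k K) x1 z]
  show C1 p ez U K v F2 x0 (min k K) z x1 = C1 p ez U K v F2 x0 (min (min k K) K) z x1
  rw [min_eq_left (min_le_right k K)]

/-- **Energy of the times `k`, `k + 1` at the scale `a ≥ k`.** -/
theorem en_cls' {p : H401.Num} {s r ez cP P : ℝ} (ht : 0 < p.t) (hs : 0 < s) (hr : 1 ≤ r)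
    (hez : 0 < ez) (hP : 0 ≤ P) {n K : ℕ} (hK : K ≤ n) {F2 : ℕ → Pt → ℝ}
    {Q : ℕ → Pt → Prop} (h2 : BSl n ez cP F2 Q) {x : Pt} {U : Tri} {g : ℤ → ℤ → ℝ}
    {u v : ℤ → ℤ → ι → ℝ} (C : H305.Cls K x s r P U g u v) (o : ℤ) {k a j : ℕ} (hj : j ≤ 1)
    (hka : k ≤ a) (ha : a ≤ K) :
    ∑ t ∈ rt (cx K x), ∑ x0 ∈ iv K t, ∑ x1 ∈ iv K (cx K x).1, ∑ z ∈ iv K (cx K x).2.2,
        eT (cS p ez U K v F2 x0 (k + j)) (thS p s r o K x u x0) a x1 z ≤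
      6 * (beI p r) * (s * 8 ^ K) + 3 * 4 * (P / p.lam s r) * (s * 8 ^ K) := by
  have hr0 : 0 < r := by linarith
  have hl : 0 < p.lam s r := H401.Num.lam_pos (p := p) ht hs hr
  have hbe : 0 < beI p r := Real.rpow_pos_of_pos (div_pos ht hr0) _
  have hpt : ∀ x0 x1 z,
      eT (cS p ez U K v F2 x0 (k + j)) (thS p s r o K x u x0) a x1 z =
      wl p ez U K F2 x1 z (min (k + j) K) x0 * (v x1 z ⬝ᵥ (beI p r • (1 : Matrix ι ι ℝ) +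
        H652.Th (p.lam s r) K (cx K x).2.1 (KT (p.lam s r) u x1) (o - 2) x0 x1 a (ix a z)) *ᵥ
        v x1 z) := by
    intro x0 x1 z
    unfold H505.Sk1.eT
    rw [cS_min p ez U K v F2 x0 (k + j) x1 z, quad_smul, q_sq hez]
    rfl
  calc ∑ t ∈ rt (cx K x), ∑ x0 ∈ iv K t, ∑ x1 ∈ iv K (cx K x).1, ∑ z ∈ iv K (cx K x).2.2,
        eT (cS p ez U K v F2 x0 (k + j)) (thS p s r o K x u x0) a x1 z
      = ∑ t ∈ rt (cx K x), ∑ x0 ∈ iv K t, ∑ x1 ∈ iv K (cx K x).1, ∑ z ∈ iv K (cx K x).2.2,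
      wl p ez U K F2 x1 z (min (k + j) K) x0 * (v x1 z ⬝ᵥ (beI p r • (1 : Matrix ι ι ℝ) +
        H652.Th (p.lam s r) K (cx K x).2.1 (KT (p.lam s r) u x1) (o - 2) x0 x1 a (ix a z)) *ᵥ
        v x1 z) :=
        sum_congr rfl fun t _ => sum_congr rfl fun x0 _ =>
          sum_congr rfl fun x1 _ => sum_congr rfl fun z _ => hpt x0 x1 z
    _ = ∑ t ∈ rt (cx K x), ∑ x1 ∈ iv K (cx K x).1, ∑ z ∈ iv K (cx K x).2.2, ∑ x0 ∈ iv K t,
      wl p ez U K F2 x1 z (min (k + j) K) x0 * (v x1 z ⬝ᵥ (beI p r • (1 : Matrix ι ι ℝ) +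
        H652.Th (p.lam s r) K (cx K x).2.1 (KT (p.lam s r) u x1) (o - 2) x0 x1 a (ix a z)) *ᵥ
        v x1 z) := by
        refine sum_congr rfl fun t _ => ?_
        rw [sum_comm]
        exact sum_congr rfl fun x1 _ => sum_comm
    _ ≤ ∑ t ∈ rt (cx K x), ∑ x1 ∈ iv K (cx K x).1, ∑ x3 ∈ iv K (cx K x).2.2,
        (2 * 2 ^ K * (beI p r) * (v x1 x3 ⬝ᵥ v x1 x3) + 1 * (2 ^ K * (4 * (p.lam s r)⁻¹ *
          (v x1 x3 ⬝ᵥ GT u x1 K (cx K x).2.1 *ᵥ v x1 x3)))) := by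
        refine sum_le_sum fun t _ => sum_le_sum fun x1 _ => sum_le_sum fun z _ => ?_
        refine (en_lag (tr_T hl K u x1) (v x1 z) zero_le_two hbe.le
            (fun x0 => wl_nonneg hez U K F2 x1 z (min (k + j) K) x0) hka ha
            (wl_cell' hez U hK h2 x1 z hj (hka.trans ha)) t (o - 2) x1 (ix a z)).trans
          (le_of_eq ?_)
        ring
    _ = ∑ t ∈ rt (cx K x), (2 * 2 ^ K * (beI p r) *
          ∑ x3 ∈ iv K (cx K x).2.2, ∑ x1 ∈ iv K (cx K x).1, v x1 x3 ⬝ᵥ v x1 x3) +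
        ∑ t ∈ rt (cx K x), ∑ x1 ∈ iv K (cx K x).1, ∑ x3 ∈ iv K (cx K x).2.2,
        1 * (2 ^ K * (4 * (p.lam s r)⁻¹ *
          (v x1 x3 ⬝ᵥ GT u x1 K (cx K x).2.1 *ᵥ v x1 x3))) := by
        rw [← sum_add_distrib]
        refine sum_congr rfl fun t _ => ?_
        rw [sum_comm (s := iv K (cx K x).2.2)]
        simp only [mul_sum, ← sum_add_distrib]
    _ ≤ _ := by
        refine add_le_add ?_ (pot_root' hP C hl (by norm_num))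
        rw [sum_const, rt_card, nsmul_eq_mul]
        have h := mul_le_mul_of_nonneg_left (H58.mass_v C)
          (by positivity : (0 : ℝ) ≤ 6 * (2 ^ K * beI p r))
        push_cast
        have e8 : (8 : ℝ) ^ K = 2 ^ K * 4 ^ K := by rw [← mul_pow]; norm_num
        rw [e8]
        linarith

end fam

/-! ### Under the quantifiers -/

/-- all kinds, every lag, times `k` and `k + 1` -/
def KindsL : Prop := PairQ fun ι _ _ p _ ez _ F2 _ o K x s r U _ u v _ _ _ X =>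
  ∀ q j : ℕ, j ≤ 1 → ∑ t ∈ rt (cx K x), ∑ x0 ∈ iv K t, ∑ k ∈ range (K - q),
    ∑ x1 ∈ iv K (cx K x).1, ∑ z ∈ iv K (cx K x).2.2,
      (chg p s r o K x u x0 (k + q) x1 z (cS p ez U K v F2 x0 (k + j) x1 z) +
        kinds p s r o K x u x0 (k + q) x1 z (cS p ez U K v F2 x0 (k + j) x1 z)) ≤
    X * (s * 8 ^ K) * (p.t / r) ^ (p.e0 / 2)

/-- the energies: the times `k`, `k + 1` at every scale `a ≥ k` -/
def EnL' : Prop := PairQ fun ι _ _ p _ ez _ F2 _ o K x s r U _ u v _ _ _ X =>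
  ∀ k a j : ℕ, j ≤ 1 → k ≤ a → a ≤ K →
    ∑ t ∈ rt (cx K x), ∑ x0 ∈ iv K t, ∑ x1 ∈ iv K (cx K x).1, ∑ z ∈ iv K (cx K x).2.2,
      eT (cS p ez U K v F2 x0 (k + j)) (thS p s r o K x u x0) a x1 z ≤
    X * (s * 8 ^ K) * (p.t / r) ^ (p.e0 / 2)

theorem kindsL : KindsL := by
  intro a ha ha1
  refine ⟨1, one_pos, fun e0 he0 _ => ⟨1, one_pos, fun k8 _ _ => ⟨1, one_pos, fun k3 _ _ δ hδ =>
    ⟨δ, 1, hδ, one_pos, fun c hc hcc d hd hdd Kt e cP L hK he hcP hL =>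
      ⟨245856 * L, by positivity, ?_⟩⟩⟩⟩⟩
  intro t ht ht1 n ez F1 F2 F3 h1 h3 h2 o ho K hKn x ι _ _ s r U g u v hs hr hcls Q1 Q2 Q3 q1 q2 q3
    hez q j hj
  set p : H401.Num := ⟨a, e0, k8, k3, c, d, Kt, e, cP, L, 1, t⟩ with hp
  have hr0 : 0 < r := by linarith
  have hy0 : 0 < t / r := div_pos ht hr0
  have hbe : 0 < beI p r := Real.rpow_pos_of_pos hy0 _
  have hP : 0 ≤ L * t ^ (2 - c) * √s :=
    mul_nonneg (mul_nonneg (by linarith) (Real.rpow_nonneg ht.le _)) (Real.sqrt_nonneg _)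
  have hA := var_cls (p := p) ht hs hr hez hP hKn q2 hcls.toCls o q hj
  have hB := kinds_cls (p := p) ht ht1 he0.le hs hr hez hP hKn q2 hcls.toCls o q hj
  simp only [sum_add_distrib]
  refine (add_le_add hA hB).trans ?_
  calc 3 * (40976 * (beI p r)⁻¹) * ((L * t ^ (2 - c) * √s) / p.lam s r) * (s * 8 ^ K) +
        3 * (40976 * (beI p r)⁻¹) * ((L * t ^ (2 - c) * √s) / p.lam s r) * (s * 8 ^ K)
      = 6 * (40976 * (beI p r)⁻¹) * ((L * t ^ (2 - c) * √s) / p.lam s r) * (s * 8 ^ K) := by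
        ring
    _ ≤ 6 * (40976 * (beI p r)⁻¹) * (L * ((t / r) ^ (-δ) * (t / r) ^ e0)) * (s * 8 ^ K) := by
        refine mul_le_mul_of_nonneg_right (mul_le_mul_of_nonneg_left ?_ (by positivity))
          (by positivity)
        exact gap_le ht ht1 hs hr (by linarith) hc hcc
    _ = 245856 * L * (t / r) ^ (-δ) * (s * 8 ^ K) * (t / r) ^ (e0 / 2) := by
        have e1 : (t / r) ^ e0 = (t / r) ^ (e0 / 2) * (t / r) ^ (e0 / 2) := by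
          rw [← Real.rpow_add hy0]
          congr 1
          ring
        have e2 : beI p r = (t / r) ^ (e0 / 2) := rfl
        have e3 : 0 < (t / r) ^ (e0 / 2) := Real.rpow_pos_of_pos hy0 _
        rw [e1, e2]
        field_simp
        ring

theorem enL' : EnL' := by
  intro a ha ha1
  refine ⟨1, one_pos, fun e0 he0 _ => ⟨1, one_pos, fun k8 _ _ => ⟨1, one_pos, fun k3 _ _ δ hδ =>
    ⟨δ, 1, hδ, one_pos, fun c hc hcc d hd hdd Kt e cP L hK he hcP hL =>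
      ⟨6 + 12 * L, by positivity, ?_⟩⟩⟩⟩⟩
  intro t ht ht1 n ez F1 F2 F3 h1 h3 h2 o ho K hKn x ι _ _ s r U g u v hs hr hcls Q1 Q2 Q3 q1 q2 q3
    hez k a' j hj hka hak
  set p : H401.Num := ⟨a, e0, k8, k3, c, d, Kt, e, cP, L, 1, t⟩ with hp
  have hr0 : 0 < r := by linarith
  have hy0 : 0 < t / r := div_pos ht hr0
  have hy1 : t / r ≤ 1 := by
    rw [div_le_one hr0]
    linarith
  have hL0 : 0 ≤ L := by linarith
  have hbe : 0 < beI p r := Real.rpow_pos_of_pos hy0 _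
  have hP : 0 ≤ L * t ^ (2 - c) * √s :=
    mul_nonneg (mul_nonneg (by linarith) (Real.rpow_nonneg ht.le _)) (Real.sqrt_nonneg _)
  have hd1 : 1 ≤ (t / r) ^ (-δ) := by
    rw [Real.rpow_neg hy0.le]
    exact (one_le_inv₀ (Real.rpow_pos_of_pos hy0 _)).2 (Real.rpow_le_one hy0.le hy1 hδ.le)
  refine (en_cls' (p := p) ht hs hr hez hP hKn q2 hcls.toCls o hj hka hak).trans ?_
  have h1' : 6 * beI p r * (s * 8 ^ K) ≤ 6 * (t / r) ^ (-δ) * (s * 8 ^ K) * (t / r) ^ (e0 / 2) := by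
    have e2 : beI p r = (t / r) ^ (e0 / 2) := rfl
    have h0 : 0 ≤ 6 * (s * 8 ^ K) * (t / r) ^ (e0 / 2) := by positivity
    rw [e2]
    nlinarith
  have h2' : 3 * 4 * ((L * t ^ (2 - c) * √s) / p.lam s r) * (s * 8 ^ K) ≤
      12 * L * (t / r) ^ (-δ) * (s * 8 ^ K) * (t / r) ^ (e0 / 2) :=
    calc 3 * 4 * ((L * t ^ (2 - c) * √s) / p.lam s r) * (s * 8 ^ K)
        ≤ 3 * 4 * (L * ((t / r) ^ (-δ) * (t / r) ^ e0)) * (s * 8 ^ K) := by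
          refine mul_le_mul_of_nonneg_right (mul_le_mul_of_nonneg_left ?_ (by norm_num))
            (by positivity)
          exact gap_le ht ht1 hs hr hL0 hc hcc
      _ ≤ 3 * 4 * (L * ((t / r) ^ (-δ) * (t / r) ^ (e0 / 2))) * (s * 8 ^ K) := by
          refine mul_le_mul_of_nonneg_right (mul_le_mul_of_nonneg_left ?_ (by norm_num))
            (by positivity)
          refine mul_le_mul_of_nonneg_left (mul_le_mul_of_nonneg_left ?_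
            (Real.rpow_nonneg hy0.le _)) hL0
          exact Real.rpow_le_rpow_of_exponent_ge hy0 hy1 (by linarith)
      _ = _ := by ring
  calc _ ≤ 6 * (t / r) ^ (-δ) * (s * 8 ^ K) * (t / r) ^ (e0 / 2) +
        12 * L * (t / r) ^ (-δ) * (s * 8 ^ K) * (t / r) ^ (e0 / 2) := add_le_add h1' h2'
    _ = (6 + 12 * L) * (t / r) ^ (-δ) * (s * 8 ^ K) * (t / r) ^ (e0 / 2) := by ring

end

end Vale.Agent.P141.H548
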