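import Vale.Agent.P141.H886.SumU
import Vale.Agent.P141.H548.LagN

/-!
# P141, line (A), increasing part: the numbers of the moving weight as sums `SumL`, `SumU`

`vN j q` : charges and kinds of the lag `q`, slot of the time `k + j`; `oN q` : energy of the time
`1` at the scale `min q K`; `wV`, `wO` : the same with the weights `(3/4)^q`.
-/

namespace Vale.Agent.P141.H548

open Finset Matrix
open Vale.Agent.P141.PL (Pt iv ix cx mem_iv)
open Vale.Agent.P141.PL.H315 (Tri)
open Vale.Agent.P141.H401 (StQ)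
open Vale.Agent.P141.H677 (rt)
open Vale.Agent.P141.H505.Sk1 (eT eM dTh)
open Vale.Agent.P141.H408
open Vale.Agent.P141.H808
open Vale.Agent.P141.H886 (NumF SumQ SumU SumL)

noncomputable section

open scoped Classical

set_option linter.unusedVariables false

/-- charges and kinds of the lag `q`, slot of the time `k + j` -/
def vN (j q : ℕ) : NumF := fun ι _ _ p n ez F1 F2 F3 o K x s r U g u v Q1 Q2 Q3 x0 =>
  ∑ k ∈ range (K - q), ∑ x1 ∈ iv K (cx K x).1, ∑ z ∈ iv K (cx K x).2.2,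
    (chg p s r o K x u x0 (k + q) x1 z (cS p ez U K v F2 x0 (k + j) x1 z) +
      kinds p s r o K x u x0 (k + q) x1 z (cS p ez U K v F2 x0 (k + j) x1 z))

/-- energy of the time `1` at the scale `min q K` -/
def oN (q : ℕ) : NumF := fun ι _ _ p n ez F1 F2 F3 o K x s r U g u v Q1 Q2 Q3 x0 =>
  ∑ x1 ∈ iv K (cx K x).1, ∑ z ∈ iv K (cx K x).2.2,
    eT (cS p ez U K v F2 x0 1) (thS p s r o K x u x0) (min q K) x1 z

theorem sumL_v {j : ℕ} (hj : j ≤ 1) : SumL 1 (vN j) := by
  refine PairQ.toU (PairQ.imp kindsL ?_)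
  intro ι _ _ p n ez F1 F2 F3 o K x s r U g u v Q1 Q2 Q3 X h q
  unfold H886.SumQ
  rw [one_mul]
  exact h q j hj

theorem sumL_o : SumL 1 oN := by
  refine PairQ.toU (PairQ.imp enL' ?_)
  intro ι _ _ p n ez F1 F2 F3 o K x s r U g u v Q1 Q2 Q3 X h q
  unfold H886.SumQ
  rw [one_mul]
  exact h 0 (min q K) 1 le_rfl (Nat.zero_le _) (min_le_right _ _)

/-- **charges and kinds, weights of the lags** -/
theorem sumU_v {j : ℕ} (hj : j ≤ 1) :
    SumU 1 fun ι _ _ p n ez F1 F2 F3 o K x s r U g u v Q1 Q2 Q3 x0 =>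
      ∑ l ∈ range (K + 1), (3 / 4 : ℝ) ^ l *
        vN j l ι p n ez F1 F2 F3 o K x s r U g u v Q1 Q2 Q3 x0 := (sumL_v hj).wS

/-- **energies of the time `1`, weights of the lags** -/
theorem sumU_o :
    SumU 1 fun ι _ _ p n ez F1 F2 F3 o K x s r U g u v Q1 Q2 Q3 x0 =>
      ∑ l ∈ range (K + 1), (3 / 4 : ℝ) ^ l *
        oN l ι p n ez F1 F2 F3 o K x s r U g u v Q1 Q2 Q3 x0 := sumL_o.wS

end

end Vale.Agent.P141.H548
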