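import Vale.Agent.P141.H548.LagW
import Vale.Agent.P141.H457.NumBC

/-!
# P141, line (A), increasing part: the second slot at the hub `x1`, class letters

For every path `c` which agrees with the slot `cS x0` on the root at the times `k ≤ K`:

* `hC1_cls`, `hC2_cls` : the two numbers of the outer step, below `vN 1 0`;
* `tv_cls`, `om_cls`, `oo_cls` : plane energy and own numbers, right side `a (σ E)`,
  `a = 48576 (J + 1)^3`;
* `EC` : the number `E` of the second slot.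
-/

namespace Vale.Agent.P141.H548

open Finset Matrix
open Vale.Agent.P075 (Ix)
open Vale.Agent.P141.PL (Pt iv ix cx mem_iv)
open Vale.Agent.P141.PL.H315 (Tri)
open Vale.Agent.P141.H401 (StQ)
open Vale.Agent.P141.H389 (TV)
open Vale.Agent.P141.H677 (rt KT GT tr_T)
open Vale.Agent.P141.H652 (eb ah Th)
open Vale.Agent.P141.H505.Sk1 (eT eM dTh)
open Vale.Agent.P141.H585.PairCh (dls)
open Vale.Agent.P141.H585.PairO (mh gp)
open Vale.Agent.P141.H874 (CP sk)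
open Vale.Agent.P141.H457 (SD TD PG rs Fv)
open Vale.Agent.P141.H408
open Vale.Agent.P141.H808
open Vale.Agent.P141.H886 (NumF SumQ SumU SumL)
open Vale.Agent.P141.H419.WFamR (Wn Dn En nmH nmD nmE nmB c1 P1)
open Vale.Agent.P141.H912 (OwL wS)

noncomputable section

open scoped Classical

set_option linter.unusedVariables false

section fam

variable {ι : Type} [Fintype ι] [DecidableEq ι]

variable {p : H401.Num} {s r : ℝ} {n : ℕ} {ez : ℝ} {F1 F2 F3 : ℕ → Pt → ℝ} {o : ℤ} {K : ℕ}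
  {x : Pt} {U : Tri} {g : ℤ → ℤ → ℝ} {u v : ℤ → ℤ → ι → ℝ} {Q1 Q2 Q3 : ℕ → Pt → Prop} {x0 : ℤ}

theorem kinds_nn (ht : 0 < p.t) (hs : 0 < s) (hr : 1 ≤ r) (a : ℕ) (x1 z : ℤ) (w : ι → ℝ) :
    0 ≤ kinds p s r o K x u x0 a x1 z w := by
  have h1 := zm_nonneg ht hs hr o K x u x0 a x1 z w
  have h2 := ze_nonneg ht hs hr o K x u x0 a x1 z w
  have h3 := zd_nonneg ht hs hr o K x u x0 a x1 z w
  have h4 := zq_nonneg ht hs hr o K x u x0 a x1 z w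
  unfold kinds
  linarith

theorem vN_nn (ht : 0 < p.t) (hs : 0 < s) (hr : 1 ≤ r) (j q : ℕ) :
    0 ≤ vN j q ι p n ez F1 F2 F3 o K x s r U g u v Q1 Q2 Q3 x0 := by
  unfold vN
  exact sum_nonneg fun k _ => sum_nonneg fun x1 _ => sum_nonneg fun z _ =>
    add_nonneg (chg_nonneg ht hs hr o K x u x0 (k + q) x1 z _)
      (kinds_nn ht hs hr (k + q) x1 z _)

theorem oN_nn (ht : 0 < p.t) (hs : 0 < s) (hr : 1 ≤ r) (q : ℕ) :
    0 ≤ oN q ι p n ez F1 F2 F3 o K x s r U g u v Q1 Q2 Q3 x0 := by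
  unfold oN
  exact sum_nonneg fun x1 _ => sum_nonneg fun z _ =>
    eT_nonneg (fun x1 k m => thS_pd ht hs hr o K x u x0 x1 k m) _ _ _ _

/-- the path agrees with the slot on the root -/
def Agr (p : H401.Num) (ez : ℝ) (K : ℕ) (x : Pt) (U : Tri) (v : ℤ → ℤ → ι → ℝ)
    (F2 : ℕ → Pt → ℝ) (x0 : ℤ) (c : ℕ → ℤ → ℤ → ι → ℝ) : Prop :=
  ∀ k ≤ K, ∀ x1 ∈ iv K (cx K x).1, ∀ z ∈ iv K (cx K x).2.2,
    c k x1 z = cS p ez U K v F2 x0 k x1 z

/-- the charges of a path -/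
theorem chg_le (ht : 0 < p.t) (hs : 0 < s) (hr : 1 ≤ r) (j q : ℕ) {c : ℕ → ℤ → ℤ → ι → ℝ}
    (hc : ∀ k < K - q, ∀ x1 ∈ iv K (cx K x).1, ∀ z ∈ iv K (cx K x).2.2,
      c k x1 z = cS p ez U K v F2 x0 (k + j) x1 z) :
    ∑ k ∈ range (K - q), ∑ x1 ∈ iv K (cx K x).1, ∑ z ∈ iv K (cx K x).2.2,
      chg p s r o K x u x0 (k + q) x1 z (c k x1 z) ≤
    vN j q ι p n ez F1 F2 F3 o K x s r U g u v Q1 Q2 Q3 x0 := by
  unfold vN
  refine sum_le_sum fun k hk => sum_le_sum fun x1 h1 => sum_le_sum fun z h2 => ?_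
  rw [hc k (mem_range.1 hk) x1 h1 z h2]
  have h5 := kinds_nn (o := o) (K := K) (x := x) (u := u) (x0 := x0) ht hs hr (k + q) x1 z
    (cS p ez U K v F2 x0 (k + j) x1 z)
  linarith

/-- variation and drift of a path, lag `q` -/
theorem nm_vN (ht : 0 < p.t) (ht1 : p.t ≤ 1) (he0 : 0 ≤ p.e0) (hs : 0 < s) (hr : 1 ≤ r)
    (j q : ℕ) {c : ℕ → ℤ → ℤ → ι → ℝ}
    (hc : ∀ k < K - q, ∀ x1 ∈ iv K (cx K x).1, ∀ z ∈ iv K (cx K x).2.2,
      c k x1 z = cS p ez U K v F2 x0 (k + j) x1 z) :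
    4 * (beI p r)⁻¹ * nmD K (cx K x).2.2 (cx K x).1 (dL p s r o K x u x0) c q +
      8 * (beI p r)⁻¹ * nmE K (cx K x).2.2 (cx K x).1 (eL p s r o K x u x0) c q ≤
    vN j q ι p n ez F1 F2 F3 o K x s r U g u v Q1 Q2 Q3 x0 :=
  (nm_le ht ht1 he0 hs hr o K x u x0 c q).trans (chg_le ht hs hr j q hc)

/-- scalars of the own numbers -/
theorem own_scal {J : ℕ} {b D E V H B : ℝ} (hb1 : 1 ≤ b) (hD : 0 ≤ D) (hE : 0 ≤ E) (hH : 0 ≤ H)
    (hB : 0 ≤ B) (hV : 4 * b * D + 8 * b * E ≤ V) :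
    ((J : ℝ) + 1) * H + 32 * ((J : ℝ) + 1) ^ 3 * (2 * b * D) + 1 / 2 * ((J : ℝ) + 1) * (2 * E) +
      ((J : ℝ) + 1) * B ≤ 32 * ((J : ℝ) + 1) ^ 3 * (H + V + B) := by
  have hJ : (1 : ℝ) ≤ (J : ℝ) + 1 := by
    have : (0 : ℝ) ≤ J := Nat.cast_nonneg J
    linarith
  have hJ3 : (J : ℝ) + 1 ≤ ((J : ℝ) + 1) ^ 3 := by
    calc (J : ℝ) + 1 = ((J : ℝ) + 1) ^ 1 := (pow_one _).symm
      _ ≤ ((J : ℝ) + 1) ^ 3 := pow_le_pow_right₀ hJ (by norm_num)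
  have hJp : (0 : ℝ) < ((J : ℝ) + 1) ^ 3 := by positivity
  have h6 : E ≤ b * E := by nlinarith
  have hbD : 0 ≤ b * D := by positivity
  have hbE : 0 ≤ b * E := by positivity
  have a1 : ((J : ℝ) + 1) * H ≤ 32 * ((J : ℝ) + 1) ^ 3 * H :=
    mul_le_mul_of_nonneg_right (by linarith) hH
  have a2 : ((J : ℝ) + 1) * B ≤ 32 * ((J : ℝ) + 1) ^ 3 * B :=
    mul_le_mul_of_nonneg_right (by linarith) hB
  have a3 : 1 / 2 * ((J : ℝ) + 1) * (2 * E) ≤ ((J : ℝ) + 1) ^ 3 * (b * E) := by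
    calc 1 / 2 * ((J : ℝ) + 1) * (2 * E) = ((J : ℝ) + 1) * E := by ring
      _ ≤ ((J : ℝ) + 1) ^ 3 * E := mul_le_mul_of_nonneg_right hJ3 hE
      _ ≤ _ := mul_le_mul_of_nonneg_left h6 hJp.le
  have a4 : ((J : ℝ) + 1) ^ 3 * (2 * (b * D) + b * E) ≤ ((J : ℝ) + 1) ^ 3 * V := by
    refine mul_le_mul_of_nonneg_left ?_ hJp.le
    linarith
  have a5 : 0 ≤ ((J : ℝ) + 1) ^ 3 * (b * E) := by positivity
  nlinarith

theorem inv_one (ht : 0 < p.t) (ht1 : p.t ≤ 1) (he0 : 0 ≤ p.e0) (hr : 1 ≤ r) :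
    0 < beI p r ∧ 1 ≤ (beI p r)⁻¹ := by
  have hbe : 0 < beI p r := Real.rpow_pos_of_pos (div_pos ht (by linarith)) _
  exact ⟨hbe, (one_le_inv₀ hbe).2 (beI_le_one ht ht1 he0 hr)⟩

theorem nmH_zero {c : ℕ → ℤ → ℤ → ι → ℝ} (hc : Agr p ez K x U v F2 x0 c) (q : ℕ) :
    nmH K (cx K x).2.2 (cx K x).1 (beI p r) (TL p s r o K x u x0) c q = 0 := by
  unfold H419.WFamR.nmH H419.WFamR.Wn
  refine sum_eq_zero fun x1 h1 => sum_eq_zero fun z h2 => ?_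
  rw [hc 0 (Nat.zero_le K) x1 h1 z h2, cS_zero, mulVec_zero, dotProduct_zero]

theorem c1_agr {c : ℕ → ℤ → ℤ → ι → ℝ} (hc : Agr p ez K x U v F2 x0 c) (k : ℕ)
    {x1 : ℤ} (h1 : x1 ∈ iv K (cx K x).1) {z : ℤ} (h2 : z ∈ iv K (cx K x).2.2) :
    c1 K c k x1 z = cS p ez U K v F2 x0 (k + 1) x1 z := by
  unfold H419.WFamR.c1
  rw [hc _ (min_le_right _ _) x1 h1 z h2]
  show C1 p ez U K v F2 x0 (min (min (k + 1) K) K) z x1 =
    C1 p ez U K v F2 x0 (min (k + 1) K) z x1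
  rw [min_eq_left (min_le_right _ _)]

theorem nmH_one (ht : 0 < p.t) (hs : 0 < s) (hr : 1 ≤ r) {c : ℕ → ℤ → ℤ → ι → ℝ}
    (hc : Agr p ez K x U v F2 x0 c) {q : ℕ} (hq : q ≤ K) :
    nmH K (cx K x).2.2 (cx K x).1 (beI p r) (TL p s r o K x u x0) (c1 K c) q =
      oN q ι p n ez F1 F2 F3 o K x s r U g u v Q1 Q2 Q3 x0 := by
  unfold H419.WFamR.nmH H419.WFamR.Wn oN
  rw [min_eq_left hq]
  refine sum_congr rfl fun x1 h1 => sum_congr rfl fun z h2 => ?_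
  rw [c1_agr hc 0 h1 h2]
  rfl

/-- **First number of the outer step** (`hC1` of `fix_BC`). -/
theorem hC1_cls (ht : 0 < p.t) (hs : 0 < s) (hr : 1 ≤ r) {c : ℕ → ℤ → ℤ → ι → ℝ}
    (hc : Agr p ez K x U v F2 x0 c) :
    ∑ k ∈ Ico 0 K, ∑ x1 ∈ iv K (cx K x).1, ∑ z ∈ iv K (cx K x).2.2,
      c (k + 1) x1 z ⬝ᵥ Fv (beI p r) (TL p s r o K x u x0) (dL p s r o K x u x0) k
        (ix (k + 1) z) x1 *ᵥ c (k + 1) x1 z ≤
    vN 1 0 ι p n ez F1 F2 F3 o K x s r U g u v Q1 Q2 Q3 x0 := by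
  unfold vN
  rw [Nat.sub_zero, range_eq_Ico]
  refine sum_le_sum fun k hk => sum_le_sum fun x1 h1 => sum_le_sum fun z h2 => ?_
  have hk1 : k + 1 ≤ K := (mem_Ico.1 hk).2
  rw [hc (k + 1) hk1 x1 h1 z h2]
  show _ ≤ chg p s r o K x u x0 k x1 z (cS p ez U K v F2 x0 (k + 1) x1 z) +
    kinds p s r o K x u x0 k x1 z (cS p ez U K v F2 x0 (k + 1) x1 z)
  have b1 := chg_nonneg ht hs hr o K x u x0 k x1 z (cS p ez U K v F2 x0 (k + 1) x1 z)
  have b2 := ze_nonneg ht hs hr o K x u x0 k x1 z (cS p ez U K v F2 x0 (k + 1) x1 z)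
  have b3 := zd_nonneg ht hs hr o K x u x0 k x1 z (cS p ez U K v F2 x0 (k + 1) x1 z)
  have b4 := zq_nonneg ht hs hr o K x u x0 k x1 z (cS p ez U K v F2 x0 (k + 1) x1 z)
  have b5 : cS p ez U K v F2 x0 (k + 1) x1 z ⬝ᵥ Fv (beI p r) (TL p s r o K x u x0)
      (dL p s r o K x u x0) k (ix (k + 1) z) x1 *ᵥ cS p ez U K v F2 x0 (k + 1) x1 z =
      cS p ez U K v F2 x0 (k + 1) x1 z ⬝ᵥ (dN p s r o K x u x0 k x1 z *
        (wN p s r o K x u x0 k x1 z)⁻¹ * dN p s r o K x u x0 k x1 z) *ᵥ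
        cS p ez U K v F2 x0 (k + 1) x1 z := rfl
  rw [b5]
  unfold kinds
  linarith

/-- **Second number of the outer step** (`hC2` of `fix_BC`). -/
theorem hC2_cls (ht : 0 < p.t) (hs : 0 < s) (hr : 1 ≤ r) {c : ℕ → ℤ → ℤ → ι → ℝ}
    (hc : Agr p ez K x U v F2 x0 c) :
    ∑ k ∈ Ico 0 K, ∑ x1 ∈ iv K (cx K x).1, ∑ z ∈ iv K (cx K x).2.2,
      c (k + 1) x1 z ⬝ᵥ eL p s r o K x u x0 k x1 (ix (k + 1) z) *ᵥ c (k + 1) x1 z ≤
    vN 1 0 ι p n ez F1 F2 F3 o K x s r U g u v Q1 Q2 Q3 x0 := by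
  unfold vN
  rw [Nat.sub_zero, range_eq_Ico]
  refine sum_le_sum fun k hk => sum_le_sum fun x1 h1 => sum_le_sum fun z h2 => ?_
  have hk1 : k + 1 ≤ K := (mem_Ico.1 hk).2
  rw [hc (k + 1) hk1 x1 h1 z h2]
  show _ ≤ chg p s r o K x u x0 k x1 z (cS p ez U K v F2 x0 (k + 1) x1 z) +
    kinds p s r o K x u x0 k x1 z (cS p ez U K v F2 x0 (k + 1) x1 z)
  have b1 := chg_nonneg ht hs hr o K x u x0 k x1 z (cS p ez U K v F2 x0 (k + 1) x1 z)
  have b2 := zm_nonneg ht hs hr o K x u x0 k x1 z (cS p ez U K v F2 x0 (k + 1) x1 z)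
  have b3 := zd_nonneg ht hs hr o K x u x0 k x1 z (cS p ez U K v F2 x0 (k + 1) x1 z)
  have b4 := zq_nonneg ht hs hr o K x u x0 k x1 z (cS p ez U K v F2 x0 (k + 1) x1 z)
  have b5 : cS p ez U K v F2 x0 (k + 1) x1 z ⬝ᵥ eL p s r o K x u x0 k x1 (ix (k + 1) z) *ᵥ
      cS p ez U K v F2 x0 (k + 1) x1 z = cS p ez U K v F2 x0 (k + 1) x1 z ⬝ᵥ
        eN p s r o K x u x0 k x1 z *ᵥ cS p ez U K v F2 x0 (k + 1) x1 z := rfl
  rw [b5]
  unfold kinds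
  linarith

/-- the families of the hub -/
theorem wt_cls (ht : 0 < p.t) (hs : 0 < s) (hr : 1 ≤ r) :
    H419.Wt (TL p s r o K x u x0) (eL p s r o K x u x0) (dL p s r o K x u x0) :=
  H652.wt_Th (fun x1 => tr_T (H401.Num.lam_pos (p := p) ht hs hr) K u x1) (cx K x).2.1 (o - 2) x0

theorem two_cls (ht : 0 < p.t) (hs : 0 < s) (hr : 1 ≤ r) (k : ℕ) (x1 m : ℤ) :
    ((2 : ℝ) • (1 : Matrix ι ι ℝ) - TL p s r o K x u x0 k x1 m).PosSemidef :=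
  H652.Th_le_two (tr_T (H401.Num.lam_pos (p := p) ht hs hr) K u x1) (o - 2) x0 x1 k m

/-- births of a path, every lag -/
abbrev nB (p : H401.Num) (s r : ℝ) (o : ℤ) (K : ℕ) (x : Pt) (u : ℤ → ℤ → ι → ℝ) (x0 : ℤ)
    (Pc : ℕ → ℤ → ℤ → Prop) (c : ℕ → ℤ → ℤ → ι → ℝ) (q : ℕ) : ℝ :=
  nmB K (cx K x).2.2 (cx K x).1 (beI p r) (TL p s r o K x u x0) Pc c q

theorem nB_nn (ht : 0 < p.t) (hs : 0 < s) (hr : 1 ≤ r) (Pc : ℕ → ℤ → ℤ → Prop)
    (c : ℕ → ℤ → ℤ → ι → ℝ) (q : ℕ) : 0 ≤ nB p s r o K x u x0 Pc c q :=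
  H419.WFamR.nmB_nonneg (Real.rpow_pos_of_pos (div_pos ht (by linarith)) _)
    (wt_cls ht hs hr).ps K _ _ Pc c q

/-- **Own numbers of the path, lag `q`.** -/
theorem own_path (ht : 0 < p.t) (ht1 : p.t ≤ 1) (he0 : 0 ≤ p.e0) (hs : 0 < s) (hr : 1 ≤ r)
    (J : ℕ) {c : ℕ → ℤ → ℤ → ι → ℝ} (hc : Agr p ez K x U v F2 x0 c) (Pc : ℕ → ℤ → ℤ → Prop)
    (q : ℕ) :
    OwL J (nmH K (cx K x).2.2 (cx K x).1 (beI p r) (TL p s r o K x u x0) c)
      (fun q => 2 * (beI p r)⁻¹ * nmD K (cx K x).2.2 (cx K x).1 (dL p s r o K x u x0) c q)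
      (fun q => 2 * nmE K (cx K x).2.2 (cx K x).1 (eL p s r o K x u x0) c q)
      (fun q => ((J : ℝ) + 1) * nB p s r o K x u x0 Pc c q) q ≤
    32 * ((J : ℝ) + 1) ^ 3 * (vN 0 q ι p n ez F1 F2 F3 o K x s r U g u v Q1 Q2 Q3 x0 +
      nB p s r o K x u x0 Pc c q) := by
  obtain ⟨hbe, hb1⟩ := inv_one ht ht1 he0 hr
  have h1 := nm_vN (n := n) (ez := ez) (F1 := F1) (F2 := F2) (F3 := F3) (g := g) (Q1 := Q1)
    (Q2 := Q2) (Q3 := Q3) (U := U) (v := v) (o := o) (K := K) (x := x) (u := u) (x0 := x0)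
    ht ht1 he0 hs hr 0 q (c := c) (fun k hk x1 a1 z a2 => hc k (by omega) x1 a1 z a2)
  have h2 := own_scal (J := J) hb1 (nmD_nn (p := p) (s := s) (r := r) o K x u x0 c q)
    (nmE_nn ht hs hr o K x u x0 c q) (le_refl (0 : ℝ)) (nB_nn (o := o) (K := K) (x := x)
    (u := u) (x0 := x0) ht hs hr Pc c q) h1
  rw [H912.OwL_eq, nmH_zero hc]
  rw [zero_add] at h2
  exact h2

/-- **Own numbers of the shifted path, lag `0`.** -/
theorem own_shift (ht : 0 < p.t) (ht1 : p.t ≤ 1) (he0 : 0 ≤ p.e0) (hs : 0 < s) (hr : 1 ≤ r)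
    (J : ℕ) {c : ℕ → ℤ → ℤ → ι → ℝ} (hc : Agr p ez K x U v F2 x0 c) (Pc : ℕ → ℤ → ℤ → Prop) :
    OwL J (nmH K (cx K x).2.2 (cx K x).1 (beI p r) (TL p s r o K x u x0) (c1 K c))
      (fun q => 2 * (beI p r)⁻¹ *
        nmD K (cx K x).2.2 (cx K x).1 (dL p s r o K x u x0) (c1 K c) q)
      (fun q => 2 * nmE K (cx K x).2.2 (cx K x).1 (eL p s r o K x u x0) (c1 K c) q)
      (fun q => ((J : ℝ) + 1) * nB p s r o K x u x0 (P1 K Pc) (c1 K c) q) 0 ≤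
    32 * ((J : ℝ) + 1) ^ 3 * (oN 0 ι p n ez F1 F2 F3 o K x s r U g u v Q1 Q2 Q3 x0 +
      vN 1 0 ι p n ez F1 F2 F3 o K x s r U g u v Q1 Q2 Q3 x0 +
      ∑ k ∈ Ico 0 K, Wn K (cx K x).2.2 (cx K x).1 (beI p r) (TL p s r o K x u x0)
        (rs (Pc k) k (c (k + 1))) k) := by
  obtain ⟨hbe, hb1⟩ := inv_one ht ht1 he0 hr
  have h1 := nm_vN (n := n) (ez := ez) (F1 := F1) (F2 := F2) (F3 := F3) (g := g) (Q1 := Q1)
    (Q2 := Q2) (Q3 := Q3) (U := U) (v := v) (o := o) (K := K) (x := x) (u := u) (x0 := x0)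
    ht ht1 he0 hs hr 1 0 (c := c1 K c) (fun k hk x1 a1 z a2 => c1_agr hc k a1 a2)
  have h3 := H419.WFamR.nmB_c1 (T := TL p s r o K x u x0) hbe (wt_cls ht hs hr).ps K
    (cx K x).2.2 (cx K x).1 Pc c
  have h2 := own_scal (J := J) hb1 (nmD_nn (p := p) (s := s) (r := r) o K x u x0 (c1 K c) 0)
    (nmE_nn ht hs hr o K x u x0 (c1 K c) 0)
    (oN_nn (n := n) (ez := ez) (F1 := F1) (F2 := F2) (F3 := F3) (g := g) (Q1 := Q1)
    (Q2 := Q2) (Q3 := Q3) (U := U) (v := v) (o := o) (K := K) (x := x) (u := u) (x0 := x0)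
    ht hs hr 0) ((nB_nn (o := o) (K := K) (x := x)
    (u := u) (x0 := x0) ht hs hr (P1 K Pc) (c1 K c) 0).trans h3) h1
  rw [H912.OwL_eq, nmH_one (n := n) (F1 := F1) (F3 := F3) (g := g) (Q1 := Q1) (Q2 := Q2)
    (Q3 := Q3) ht hs hr hc (Nat.zero_le K)]
  refine le_trans ?_ h2
  have hJ : (0 : ℝ) ≤ (J : ℝ) + 1 := by positivity
  have h4 := mul_le_mul_of_nonneg_left h3 hJ
  have h5 : ((J : ℝ) + 1) * nB p s r o K x u x0 (P1 K Pc) (c1 K c) 0 ≤ ((J : ℝ) + 1) *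
    ∑ k ∈ Ico 0 K, Wn K (cx K x).2.2 (cx K x).1 (beI p r) (TL p s r o K x u x0)
        (rs (Pc k) k (c (k + 1))) k := h4
  linarith

/-- the number `E` of the second slot -/
def EC (p : H401.Num) (s r : ℝ) (n : ℕ) (ez : ℝ) (F1 F2 F3 : ℕ → Pt → ℝ) (o : ℤ) (K : ℕ)
    (x : Pt) (U : Tri) (g : ℤ → ℤ → ℝ) (u v : ℤ → ℤ → ι → ℝ) (Q1 Q2 Q3 : ℕ → Pt → Prop) (x0 : ℤ)
    (Pc : ℕ → ℤ → ℤ → Prop) (c : ℕ → ℤ → ℤ → ι → ℝ) : ℝ :=
  wS K (fun q => vN 0 q ι p n ez F1 F2 F3 o K x s r U g u v Q1 Q2 Q3 x0) +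
    wS K (fun q => nB p s r o K x u x0 Pc c q) +
    (oN 0 ι p n ez F1 F2 F3 o K x s r U g u v Q1 Q2 Q3 x0 +
      vN 1 0 ι p n ez F1 F2 F3 o K x s r U g u v Q1 Q2 Q3 x0 +
      ∑ k ∈ Ico 0 K, Wn K (cx K x).2.2 (cx K x).1 (beI p r) (TL p s r o K x u x0)
        (rs (Pc k) k (c (k + 1))) k)

theorem EC_parts (ht : 0 < p.t) (hs : 0 < s) (hr : 1 ≤ r) (Pc : ℕ → ℤ → ℤ → Prop)
    (c : ℕ → ℤ → ℤ → ι → ℝ) :
    (0 ≤ wS K (fun q => vN 0 q ι p n ez F1 F2 F3 o K x s r U g u v Q1 Q2 Q3 x0) ∧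
      0 ≤ wS K (fun q => nB p s r o K x u x0 Pc c q)) ∧
    (0 ≤ oN 0 ι p n ez F1 F2 F3 o K x s r U g u v Q1 Q2 Q3 x0 ∧
      0 ≤ vN 1 0 ι p n ez F1 F2 F3 o K x s r U g u v Q1 Q2 Q3 x0) ∧
    0 ≤ ∑ k ∈ Ico 0 K, Wn K (cx K x).2.2 (cx K x).1 (beI p r) (TL p s r o K x u x0)
        (rs (Pc k) k (c (k + 1))) k := by
  have hbe : 0 < beI p r := Real.rpow_pos_of_pos (div_pos ht (by linarith)) _
  exact ⟨⟨H912.wS_nonneg fun q => vN_nn ht hs hr 0 q, H912.wS_nonneg fun q => nB_nn ht hs hr Pc c q⟩,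
    ⟨oN_nn ht hs hr 0, vN_nn ht hs hr 1 0⟩,
    sum_nonneg fun k _ => H419.WFamR.Wn_nonneg hbe (wt_cls ht hs hr).ps K _ _ _ k⟩

/-- **Plane energy, own numbers of the middle and of the outer steps** (`hTV`, `hOM`, `hOO` of
`H736.fix_BC`), right side `a (σ E)`. -/
theorem own3 (ht : 0 < p.t) (ht1 : p.t ≤ 1) (he0 : 0 ≤ p.e0) (hs : 0 < s) (hr : 1 ≤ r) {J : ℕ}
    {c : ℕ → ℤ → ℤ → ι → ℝ} (hc : Agr p ez K x U v F2 x0 c) {Pc : ℕ → ℤ → ℤ → Prop}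
    (hPc : ∀ k < K, ∀ w m, ¬ Pc k w m → ∀ x1 ∈ iv k m, c (k + 1) x1 w = c k x1 w)
    {σ C : ℝ} (hσ : 0 < σ) (hC : 2 * C ≤ 4 ^ J * σ)
    (cap : ∀ k a n m, k ≤ a → a < K → (C • (1 : Matrix (Ix k × ι) (Ix k × ι) ℝ)
      - SD (beI p r) (TL p s r o K x u x0) k (a + 1) n m * CP (c k) k (a + 1) n m *
        SD (beI p r) (TL p s r o K x u x0) k (a + 1) n m).PosSemidef)
    (cap1 : ∀ k a n m, k ≤ a → a < K → (C • (1 : Matrix (Ix k × ι) (Ix k × ι) ℝ)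
      - SD (beI p r) (TL p s r o K x u x0) k (a + 1) n m * CP (c (k + 1)) k (a + 1) n m *
        SD (beI p r) (TL p s r o K x u x0) k (a + 1) n m).PosSemidef)
    {E : ℝ} (hE : EC p s r n ez F1 F2 F3 o K x U g u v Q1 Q2 Q3 x0 Pc c ≤ E) :
    TV 0 K (cx K x).2.2 (cx K x).1
        (fun k a n m => PG (beI p r) σ (TL p s r o K x u x0) (c k) k a n m) ≤
      48576 * ((J : ℝ) + 1) ^ 3 * (σ * E) ∧
    ∑ k ∈ Ico 0 K, (4 : ℝ) ^ (k + 1) * ∑ m ∈ iv (K - (k + 1)) (cx K x).1,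
      ∑ n ∈ iv (K - (k + 1)) (cx K x).2.2,
        gp σ (sk (k + 1) ι) (SD (beI p r) (TL p s r o K x u x0) (k + 1) (k + 1) n m *
          CP (c (k + 1)) (k + 1) (k + 1) n m *
          SD (beI p r) (TL p s r o K x u x0) (k + 1) (k + 1) n m) ≤
      48576 * ((J : ℝ) + 1) ^ 3 * (σ * E) ∧
    ∑ k ∈ Ico 0 K, (4 : ℝ) ^ (k + 1) * ∑ m ∈ iv (K - (k + 1)) (cx K x).1,
      ∑ n ∈ iv (K - (k + 1)) (cx K x).2.2,
        mh (fun h => dls σ (SD (beI p r) (TL p s r o K x u x0) k (k + 1) n h *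
            CP (c (k + 1)) k k (2 * n) h * SD (beI p r) (TL p s r o K x u x0) k (k + 1) n h)
          (SD (beI p r) (TL p s r o K x u x0) k (k + 1) n h *
            CP (c (k + 1)) k k (2 * n + 1) h *
            SD (beI p r) (TL p s r o K x u x0) k (k + 1) n h)) m ≤
      48576 * ((J : ℝ) + 1) ^ 3 * (σ * E) := by
  obtain ⟨hbe, hb1⟩ := inv_one ht ht1 he0 hr
  have hT := wt_cls (o := o) (K := K) (x := x) (u := u) (x0 := x0) ht hs hr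
  have hT2 := two_cls (o := o) (K := K) (x := x) (u := u) (x0 := x0) ht hs hr
  have hμ : 0 < σ⁻¹ := inv_pos.2 hσ
  have hCμ : σ⁻¹ / 4 ^ J * (2 * C) ≤ 1 := by
    rw [div_mul_eq_mul_div, div_le_one (by positivity), inv_mul_le_iff₀ hσ]
    linarith
  have hσ' : σ = (σ⁻¹ / 4 ^ 0)⁻¹ := by
    rw [pow_zero, div_one, inv_inv]
  obtain ⟨⟨p1, p2⟩, ⟨p3, p4⟩, p5⟩ := EC_parts (n := n) (ez := ez) (F1 := F1) (F2 := F2)
    (F3 := F3) (g := g) (Q1 := Q1) (Q2 := Q2) (Q3 := Q3) (U := U) (v := v) (o := o) (K := K)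
    (x := x) (u := u) (x0 := x0) ht hs hr Pc c
  have own := own_path (n := n) (ez := ez) (F1 := F1) (F2 := F2)
    (F3 := F3) (g := g) (Q1 := Q1) (Q2 := Q2) (Q3 := Q3) (U := U) (v := v) (o := o) (K := K)
    (x := x) (u := u) (x0 := x0) ht ht1 he0 hs hr J hc Pc
  have ownS := own_shift (n := n) (ez := ez) (F1 := F1) (F2 := F2)
    (F3 := F3) (g := g) (Q1 := Q1) (Q2 := Q2) (Q3 := Q3) (U := U) (v := v) (o := o) (K := K)
    (x := x) (u := u) (x0 := x0) ht ht1 he0 hs hr J hc Pc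
  have hJp : (0 : ℝ) < ((J : ℝ) + 1) ^ 3 := by positivity
  have hJ1 : (1 : ℝ) ≤ ((J : ℝ) + 1) ^ 3 := by
    have hJ : (1 : ℝ) ≤ (J : ℝ) + 1 := by
      have : (0 : ℝ) ≤ J := Nat.cast_nonneg J
      linarith
    exact one_le_pow₀ hJ
  unfold EC at hE
  set V0 : ℕ → ℝ := fun q => vN 0 q ι p n ez F1 F2 F3 o K x s r U g u v Q1 Q2 Q3 x0 with hV0
  set B0 : ℕ → ℝ := fun q => nB p s r o K x u x0 Pc c q with hB0
  have hV0n : ∀ q, 0 ≤ V0 q := fun q => vN_nn ht hs hr 0 q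
  have hB0n : ∀ q, 0 ≤ B0 q := fun q => nB_nn ht hs hr Pc c q
  have hwS : wS K (fun q => V0 q + B0 q) = wS K V0 + wS K B0 := by
    unfold H912.wS
    rw [← sum_add_distrib]
    refine sum_congr rfl fun q _ => ?_
    ring
  have hwE : wS K V0 + wS K B0 ≤ E := by linarith
  have hE0 : 0 ≤ E := by linarith
  refine ⟨?_, ?_, ?_⟩
  · refine (H419.WFamR.TV_real hbe hT (by norm_num : (0 : ℝ) ≤ 2) hT2 hμ (cx K x).2.2
      (cx K x).1 hPc hCμ cap (Nat.zero_le J) hσ').trans ?_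
    have e1 : wS K (OwL J (nmH K (cx K x).2.2 (cx K x).1 (beI p r) (TL p s r o K x u x0) c)
        (fun q => 2 * (beI p r)⁻¹ * nmD K (cx K x).2.2 (cx K x).1 (dL p s r o K x u x0) c q)
        (fun q => 2 * nmE K (cx K x).2.2 (cx K x).1 (eL p s r o K x u x0) c q)
        (fun q => ((J : ℝ) + 1) * nB p s r o K x u x0 Pc c q)) ≤
        32 * ((J : ℝ) + 1) ^ 3 * E := by
      calc _ ≤ wS K (fun q => 32 * ((J : ℝ) + 1) ^ 3 * (V0 q + B0 q)) := by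
            unfold H912.wS
            exact sum_le_sum fun q _ => mul_le_mul_of_nonneg_left (own q) (by positivity)
        _ = 32 * ((J : ℝ) + 1) ^ 3 * wS K (fun q => V0 q + B0 q) := by
            unfold H912.wS
            rw [mul_sum]
            refine sum_congr rfl fun q _ => ?_
            ring
        _ ≤ _ := by
            rw [hwS]
            exact mul_le_mul_of_nonneg_left hwE (by positivity)
    have e2 : (2 + 2 * (beI p r)⁻¹) * wS K (fun q =>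
        2 * nmD K (cx K x).2.2 (cx K x).1 (dL p s r o K x u x0) c q +
          2 * 2 * nmE K (cx K x).2.2 (cx K x).1 (eL p s r o K x u x0) c q) ≤ 2 * E := by
      calc _ = wS K (fun q => (2 + 2 * (beI p r)⁻¹) * (
            2 * nmD K (cx K x).2.2 (cx K x).1 (dL p s r o K x u x0) c q +
              2 * 2 * nmE K (cx K x).2.2 (cx K x).1 (eL p s r o K x u x0) c q)) := by
            unfold H912.wS
            rw [mul_sum]
            refine sum_congr rfl fun q _ => ?_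
            ring
        _ ≤ wS K (fun q => 2 * V0 q) := by
            unfold H912.wS
            refine sum_le_sum fun q _ => mul_le_mul_of_nonneg_left ?_ (by positivity)
            have h1 := nm_vN (n := n) (ez := ez) (F1 := F1) (F2 := F2) (F3 := F3) (g := g)
              (Q1 := Q1) (Q2 := Q2) (Q3 := Q3) (U := U) (v := v) (o := o) (K := K) (x := x)
              (u := u) (x0 := x0) ht ht1 he0 hs hr 0 q (c := c)
              (fun k hk x1 a1 z a2 => hc k (by omega) x1 a1 z a2)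
            have h2 := nmD_nn (p := p) (s := s) (r := r) o K x u x0 c q
            have h3 := nmE_nn ht hs hr o K x u x0 c q
            have h4 := mul_le_mul_of_nonneg_right hb1 h2
            have h5 := mul_le_mul_of_nonneg_right hb1 h3
            have h6 : 4 * (beI p r)⁻¹ * nmD K (cx K x).2.2 (cx K x).1 (dL p s r o K x u x0) c q +
                8 * (beI p r)⁻¹ * nmE K (cx K x).2.2 (cx K x).1 (eL p s r o K x u x0) c q ≤
                V0 q := h1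
            beta_reduce
            nlinarith
        _ = 2 * wS K V0 := by
            unfold H912.wS
            rw [mul_sum]
            refine sum_congr rfl fun q _ => ?_
            ring
        _ ≤ 2 * E := by linarith
    have e3 : 368 * (2 : ℝ) ^ 2 * σ * wS K (OwL J (nmH K (cx K x).2.2 (cx K x).1 (beI p r)
        (TL p s r o K x u x0) c)
        (fun q => 2 * (beI p r)⁻¹ * nmD K (cx K x).2.2 (cx K x).1 (dL p s r o K x u x0) c q)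
        (fun q => 2 * nmE K (cx K x).2.2 (cx K x).1 (eL p s r o K x u x0) c q)
        (fun q => ((J : ℝ) + 1) * nB p s r o K x u x0 Pc c q)) ≤
        368 * (2 : ℝ) ^ 2 * σ * (32 * ((J : ℝ) + 1) ^ 3 * E) :=
      mul_le_mul_of_nonneg_left e1 (by positivity)
    have e4 := mul_le_mul_of_nonneg_left e2 (by positivity : (0 : ℝ) ≤ 368 * (2 * σ))
    have e5 : σ * E ≤ ((J : ℝ) + 1) ^ 3 * (σ * E) := by
      have : 0 ≤ σ * E := by positivity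
      nlinarith
    refine (add_le_add e3 (le_of_eq ?_)).trans (?_ : _ + 368 * (2 * σ) *
      ((2 + 2 * (beI p r)⁻¹) * wS K (fun q =>
        2 * nmD K (cx K x).2.2 (cx K x).1 (dL p s r o K x u x0) c q +
          2 * 2 * nmE K (cx K x).2.2 (cx K x).1 (eL p s r o K x u x0) c q)) ≤ _)
    · ring
    · nlinarith
  · refine (H419.WFamR.OM_real hbe hT (by norm_num : (0 : ℝ) ≤ 2) hT2 hμ (cx K x).2.2
      (cx K x).1 hPc hCμ cap (Nat.zero_le J) hσ').trans ?_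
    have e0 := own 0
    have e1 : V0 0 + B0 0 ≤ E := by
      have h1 := H912.wS_zero_le (N := K) (X := V0) hV0n
      have h2 := H912.wS_zero_le (N := K) (X := B0) hB0n
      linarith
    have e2 := mul_le_mul_of_nonneg_left e0 (by positivity : (0 : ℝ) ≤ 2 * σ)
    refine e2.trans ?_
    have e3 : 2 * σ * (32 * ((J : ℝ) + 1) ^ 3 * (V0 0 + B0 0)) ≤
        2 * σ * (32 * ((J : ℝ) + 1) ^ 3 * E) :=
      mul_le_mul_of_nonneg_left (mul_le_mul_of_nonneg_left e1 (by positivity)) (by positivity)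
    refine e3.trans ?_
    have : 0 ≤ ((J : ℝ) + 1) ^ 3 * (σ * E) := by positivity
    nlinarith
  · refine (H419.WFamR.OO_real hbe hT (by norm_num : (0 : ℝ) ≤ 2) hT2 hμ (cx K x).2.2
      (cx K x).1 hPc hCμ cap1 (Nat.zero_le J) hσ').trans ?_
    have e2 := mul_le_mul_of_nonneg_left ownS (by positivity : (0 : ℝ) ≤ 4 * σ)
    refine e2.trans ?_
    have e1 := mul_le_mul_of_nonneg_left (show oN 0 ι p n ez F1 F2 F3 o K x s r U g u v Q1 Q2 Q3 x0 +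
      vN 1 0 ι p n ez F1 F2 F3 o K x s r U g u v Q1 Q2 Q3 x0 +
      ∑ k ∈ Ico 0 K, Wn K (cx K x).2.2 (cx K x).1 (beI p r) (TL p s r o K x u x0)
        (rs (Pc k) k (c (k + 1))) k ≤ E by linarith)
      (by positivity : (0 : ℝ) ≤ 32 * ((J : ℝ) + 1) ^ 3)
    have e3 := mul_le_mul_of_nonneg_left e1 (by positivity : (0 : ℝ) ≤ 4 * σ)
    refine e3.trans ?_
    have : 0 ≤ ((J : ℝ) + 1) ^ 3 * (σ * E) := by positivity
    nlinarith

end fam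


end

end Vale.Agent.P141.H548
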