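import Vale.Agent.P141.H548.LagI
import Vale.Agent.P141.H808.VarDr
import Vale.Agent.P141.H58.EWn

/-!
# P141, line (A), increasing part: the numbers of the moving weight at class data, every lag

Slots and weight of `H808.NumCA` (`cS`, `thS`, `mS`, `nS`); lag `q` : the slot of the time `k` or
`k + 1` against the weight of the scale `k + q`.

* `cS_zero` : the slot vanishes at the time `0`;
* `var_cls`, `varM_cls`, `dr_cls`, `en_cls` : the numbers at fixed data;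
* `varL`, `varML`, `drL`, `enL` : the same under the quantifiers `PairQ`.
-/

namespace Vale.Agent.P141.H548

open Finset Matrix
open Vale.Agent.P141.PL (Pt iv ix cx mem_iv)
open Vale.Agent.P141.PL.H315 (Tri)
open Vale.Agent.P141.H48 (US ES BSl)
open Vale.Agent.P141.H305 (ClsM kapM)
open Vale.Agent.P141.H401 (StQ cA cb mC)
open Vale.Agent.P141.H677 (KT GT rt cP tr_T kF)
open Vale.Agent.P141.H652 (eb ah)
open Vale.Agent.P141.H505.Sk1 (eT eM dTh)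
open Vale.Agent.P141.H44.Ti (At Cs Ww ah')
open Vale.Agent.P141.H408
open Vale.Agent.P141.H808

noncomputable section

open scoped Classical

set_option linter.unusedVariables false

section fam

variable {ι : Type} [Fintype ι] [DecidableEq ι]

/-- the slot at a time `k ≤ K` -/
theorem cS_at (p : H401.Num) (ez : ℝ) (U : Tri) (K : ℕ) (v : ℤ → ℤ → ι → ℝ)
    (F2 : ℕ → Pt → ℝ) (x0 : ℤ) {k : ℕ} (hk : k ≤ K) (x1 z : ℤ) :
    cS p ez U K v F2 x0 k x1 z =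
      ((√ez)⁻¹ * kF p.Lm U.2.1 K F2 k (x0, x1, z)) • v x1 z := by
  show C1 p ez U K v F2 x0 (min k K) z x1 = _
  rw [min_eq_left hk, mul_smul]
  rfl

/-- the slot vanishes at the time `0` -/
theorem cS_zero (p : H401.Num) (ez : ℝ) (U : Tri) (K : ℕ) (v : ℤ → ℤ → ι → ℝ)
    (F2 : ℕ → Pt → ℝ) (x0 x1 z : ℤ) : cS p ez U K v F2 x0 0 x1 z = 0 := by
  rw [cS_at p ez U K v F2 x0 (Nat.zero_le K)]
  unfold H677.kF
  rw [if_pos (Or.inl rfl), mul_zero, zero_smul]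

theorem wl_cell {p : H401.Num} {ez cP : ℝ} (hez : 0 < ez) (U : Tri) {n K : ℕ} (hK : K ≤ n)
    {F2 : ℕ → Pt → ℝ} {Q : ℕ → Pt → Prop} (h : BSl n ez cP F2 Q) (x1 z : ℤ) :
    ∀ k ≤ K, ∀ j, ∑ x0 ∈ iv k j, wl p ez U K F2 x1 z k x0 ≤ 1 * 2 ^ k := by
  intro k hk j
  rcases Nat.eq_zero_or_pos k with rfl | h0
  · have e1 : ∀ x0 ∈ iv 0 j, wl p ez U K F2 x1 z 0 x0 = 0 := fun x0 _ => by
      unfold wl H677.kF
      rw [if_pos (Or.inl rfl), zero_pow two_ne_zero, mul_zero]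
    rw [sum_congr rfl e1, sum_const_zero]
    positivity
  · exact wl_line hez U hK h x1 z (mem_Icc.2 ⟨h0, hk⟩) j

/-- the charge of the scale `a` on a vector at `(x1, z)` -/
def chg (p : H401.Num) (s r : ℝ) (o : ℤ) (K : ℕ) (x : Pt) (u : ℤ → ℤ → ι → ℝ) (x0 : ℤ) (a : ℕ)
    (x1 z : ℤ) (w : ι → ℝ) : ℝ :=
  5 * (beI p r)⁻¹ *
    ((ah (p.lam s r) K (cx K x).2.1 (KT (p.lam s r) u x1) (o - 2) x0 x1 a (ix (a + 1) z) *ᵥ w) ⬝ᵥ
    (ah (p.lam s r) K (cx K x).2.1 (KT (p.lam s r) u x1) (o - 2) x0 x1 a (ix (a + 1) z) *ᵥ w)) +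
  8 * (beI p r)⁻¹ * (w ⬝ᵥ
    eb (p.lam s r) K (cx K x).2.1 (KT (p.lam s r) u x1) (o - 2) x0 x1 (a + 1)
      (ix (a + 1) z) *ᵥ w)

theorem chg_smul (p : H401.Num) (s r : ℝ) (o : ℤ) (K : ℕ) (x : Pt) (u : ℤ → ℤ → ι → ℝ) (x0 : ℤ)
    (a : ℕ) (x1 z : ℤ) (q : ℝ) (w : ι → ℝ) :
    chg p s r o K x u x0 a x1 z (q • w) = q ^ 2 * chg p s r o K x u x0 a x1 z w := by
  unfold chg
  rw [nsq_smul', quad_smul]
  ring

theorem chg_nonneg {p : H401.Num} (ht : 0 < p.t) {s r : ℝ} (hs : 0 < s) (hr : 1 ≤ r) (o : ℤ)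
    (K : ℕ) (x : Pt) (u : ℤ → ℤ → ι → ℝ) (x0 : ℤ) (a : ℕ) (x1 z : ℤ) (w : ι → ℝ) :
    0 ≤ chg p s r o K x u x0 a x1 z w :=
  move_nonneg (tr_T (H401.Num.lam_pos (p := p) ht hs hr) K u x1) w
    (Real.rpow_pos_of_pos (div_pos ht (by linarith)) _) (o - 2) x1 z a x0

/-- the move, the drift and the charge of the stack are below the charge -/
theorem raw_le {p : H401.Num} (ht : 0 < p.t) {s r : ℝ} (hs : 0 < s) (hr : 1 ≤ r) (o : ℤ)
    (K : ℕ) (x : Pt) (u : ℤ → ℤ → ι → ℝ) (x0 : ℤ) (a : ℕ) (x1 z : ℤ) (w : ι → ℝ) :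
    (beI p r)⁻¹ *
      ((ah (p.lam s r) K (cx K x).2.1 (KT (p.lam s r) u x1) (o - 2) x0 x1 a (ix (a + 1) z) *ᵥ
        w) ⬝ᵥ
      (ah (p.lam s r) K (cx K x).2.1 (KT (p.lam s r) u x1) (o - 2) x0 x1 a (ix (a + 1) z) *ᵥ
        w)) +
      (beI p r)⁻¹ * (w ⬝ᵥ
        eb (p.lam s r) K (cx K x).2.1 (KT (p.lam s r) u x1) (o - 2) x0 x1 (a + 1)
          (ix (a + 1) z) *ᵥ w) ≤ chg p s r o K x u x0 a x1 z w := by
  have hb : 0 < (beI p r)⁻¹ := inv_pos.2 (Real.rpow_pos_of_pos (div_pos ht (by linarith)) _)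
  have h1 := mul_nonneg hb.le (H447.dot_self_nonneg (ah (p.lam s r) K (cx K x).2.1
    (KT (p.lam s r) u x1) (o - 2) x0 x1 a (ix (a + 1) z) *ᵥ w))
  have h2 := mul_nonneg hb.le (form_nonneg (H652.eb_psd (M := (cx K x).2.1)
    (tr_T (H401.Num.lam_pos (p := p) ht hs hr) K u x1) (o - 2) x0 x1 (a + 1) (ix (a + 1) z)) w)
  unfold chg
  linarith

/-- **The charges of the lag `q`, times `k` and `k + 1`.** -/
theorem var_cls {p : H401.Num} {s r ez cP P : ℝ} (ht : 0 < p.t) (hs : 0 < s) (hr : 1 ≤ r)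
    (hez : 0 < ez) (hP : 0 ≤ P) {n K : ℕ} (hK : K ≤ n) {F2 : ℕ → Pt → ℝ}
    {Q : ℕ → Pt → Prop} (h2 : BSl n ez cP F2 Q) {x : Pt} {U : Tri} {g : ℤ → ℤ → ℝ}
    {u v : ℤ → ℤ → ι → ℝ} (C : H305.Cls K x s r P U g u v) (o : ℤ) (q : ℕ) {j : ℕ}
    (hj : j ≤ 1) :
    ∑ t ∈ rt (cx K x), ∑ x0 ∈ iv K t, ∑ k ∈ range (K - q),
      ∑ x1 ∈ iv K (cx K x).1, ∑ z ∈ iv K (cx K x).2.2,
        chg p s r o K x u x0 (k + q) x1 z (cS p ez U K v F2 x0 (k + j) x1 z) ≤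
      3 * (40976 * (beI p r)⁻¹) * (P / p.lam s r) * (s * 8 ^ K) := by
  have hr0 : 0 < r := by linarith
  have hl : 0 < p.lam s r := H401.Num.lam_pos (p := p) ht hs hr
  have hbe : 0 < beI p r := Real.rpow_pos_of_pos (div_pos ht hr0) _
  have hpt : ∀ k ∈ range (K - q), ∀ x0 x1 z,
      chg p s r o K x u x0 (k + q) x1 z (cS p ez U K v F2 x0 (k + j) x1 z) =
      wl p ez U K F2 x1 z (k + j) x0 * chg p s r o K x u x0 (k + q) x1 z (v x1 z) := by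
    intro k hk x0 x1 z
    have hk1 : k + j ≤ K := by
      have := mem_range.1 hk
      omega
    rw [cS_at p ez U K v F2 x0 hk1 x1 z, chg_smul, q_sq hez]
  calc ∑ t ∈ rt (cx K x), ∑ x0 ∈ iv K t, ∑ k ∈ range (K - q),
      ∑ x1 ∈ iv K (cx K x).1, ∑ z ∈ iv K (cx K x).2.2,
        chg p s r o K x u x0 (k + q) x1 z (cS p ez U K v F2 x0 (k + j) x1 z)
      = ∑ t ∈ rt (cx K x), ∑ x0 ∈ iv K t, ∑ k ∈ range (K - q),
      ∑ x1 ∈ iv K (cx K x).1, ∑ z ∈ iv K (cx K x).2.2,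
        wl p ez U K F2 x1 z (k + j) x0 * chg p s r o K x u x0 (k + q) x1 z (v x1 z) :=
        sum_congr rfl fun t _ => sum_congr rfl fun x0 _ => sum_congr rfl fun k hk =>
          sum_congr rfl fun x1 _ => sum_congr rfl fun z _ => hpt k hk x0 x1 z
    _ = ∑ t ∈ rt (cx K x), ∑ x1 ∈ iv K (cx K x).1, ∑ z ∈ iv K (cx K x).2.2,
        ∑ k ∈ range (K - q), ∑ x0 ∈ iv K t,
          wl p ez U K F2 x1 z (k + j) x0 * chg p s r o K x u x0 (k + q) x1 z (v x1 z) := by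
        refine sum_congr rfl fun t _ => ?_
        rw [sum_comm]
        rw [sum_congr rfl fun k _ => sum_comm]
        rw [sum_comm]
        refine sum_congr rfl fun x1 _ => ?_
        rw [sum_congr rfl fun k _ => sum_comm]
        rw [sum_comm]
    _ ≤ ∑ t ∈ rt (cx K x), ∑ x1 ∈ iv K (cx K x).1, ∑ x3 ∈ iv K (cx K x).2.2,
        1 * (2 ^ K * (40976 * (beI p r)⁻¹ * (p.lam s r)⁻¹ *
          (v x1 x3 ⬝ᵥ GT u x1 K (cx K x).2.1 *ᵥ v x1 x3))) := by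
        refine sum_le_sum fun t _ => sum_le_sum fun x1 _ => sum_le_sum fun z _ => ?_
        have hj' : j = 0 ∨ j = 1 := by omega
        rcases hj' with rfl | rfl
        · exact var_lag (tr_T hl K u x1) (v x1 z) zero_le_one hbe
            (fun k x0 => wl_nonneg hez U K F2 x1 z k x0)
            (wl_cell hez U hK h2 x1 z) (iv K t) (o - 2) x1 z q
        · exact var_lag' (tr_T hl K u x1) (v x1 z) zero_le_one hbe
            (fun k x0 => wl_nonneg hez U K F2 x1 z k x0)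
            (wl_cell hez U hK h2 x1 z) (iv K t) (o - 2) x1 z q
    _ ≤ _ := pot_root' hP C hl (by positivity)

/-- **The charges of the stack (`eM`) of the lag `q`.** -/
theorem varM_cls {p : H401.Num} {s r ez cP P : ℝ} (ht : 0 < p.t) (hs : 0 < s) (hr : 1 ≤ r)
    (hez : 0 < ez) (hP : 0 ≤ P) {n K : ℕ} (hK : K ≤ n) {F2 : ℕ → Pt → ℝ}
    {Q : ℕ → Pt → Prop} (h2 : BSl n ez cP F2 Q) {x : Pt} {U : Tri} {g : ℤ → ℤ → ℝ}
    {u v : ℤ → ℤ → ι → ℝ} (C : H305.Cls K x s r P U g u v) (o : ℤ) (q : ℕ) {j : ℕ}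
    (hj : j ≤ 1) :
    ∑ t ∈ rt (cx K x), ∑ x0 ∈ iv K t, ∑ k ∈ range (K - q),
      ∑ x1 ∈ iv K (cx K x).1, ∑ z ∈ iv K (cx K x).2.2,
        eM (cS p ez U K v F2 x0 (k + j)) (thS p s r o K x u x0) (mS p s r o K x u x0) (k + q)
          x1 z ≤
      3 * (40976 * (beI p r)⁻¹) * (P / p.lam s r) * (s * 8 ^ K) :=
  (sum_le_sum fun t _ => sum_le_sum fun x0 _ => sum_le_sum fun k _ => sum_le_sum fun x1 _ =>
    sum_le_sum fun z _ => eM_pt (p := p) ht hs hr o K x u _ x0 (k + q) x1 z).trans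
    (var_cls ht hs hr hez hP hK h2 C o q hj)

/-- **The moves and the drift of the lag `q`, inverse floor in front.** -/
theorem raw_cls {p : H401.Num} {s r ez cP P : ℝ} (ht : 0 < p.t) (hs : 0 < s) (hr : 1 ≤ r)
    (hez : 0 < ez) (hP : 0 ≤ P) {n K : ℕ} (hK : K ≤ n) {F2 : ℕ → Pt → ℝ}
    {Q : ℕ → Pt → Prop} (h2 : BSl n ez cP F2 Q) {x : Pt} {U : Tri} {g : ℤ → ℤ → ℝ}
    {u v : ℤ → ℤ → ι → ℝ} (C : H305.Cls K x s r P U g u v) (o : ℤ) (q : ℕ) {j : ℕ}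
    (hj : j ≤ 1) :
    ∑ t ∈ rt (cx K x), ∑ x0 ∈ iv K t, ∑ k ∈ range (K - q),
      ∑ x1 ∈ iv K (cx K x).1, ∑ z ∈ iv K (cx K x).2.2,
        ((beI p r)⁻¹ *
          ((ah (p.lam s r) K (cx K x).2.1 (KT (p.lam s r) u x1) (o - 2) x0 x1 (k + q)
            (ix (k + q + 1) z) *ᵥ cS p ez U K v F2 x0 (k + j) x1 z) ⬝ᵥ
          (ah (p.lam s r) K (cx K x).2.1 (KT (p.lam s r) u x1) (o - 2) x0 x1 (k + q)
            (ix (k + q + 1) z) *ᵥ cS p ez U K v F2 x0 (k + j) x1 z)) +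
        (beI p r)⁻¹ * (cS p ez U K v F2 x0 (k + j) x1 z ⬝ᵥ
          eb (p.lam s r) K (cx K x).2.1 (KT (p.lam s r) u x1) (o - 2) x0 x1 (k + q + 1)
            (ix (k + q + 1) z) *ᵥ cS p ez U K v F2 x0 (k + j) x1 z)) ≤
      3 * (40976 * (beI p r)⁻¹) * (P / p.lam s r) * (s * 8 ^ K) :=
  (sum_le_sum fun t _ => sum_le_sum fun x0 _ => sum_le_sum fun k _ => sum_le_sum fun x1 _ =>
    sum_le_sum fun z _ => raw_le (p := p) ht hs hr o K x u x0 (k + q) x1 z _).trans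
    (var_cls ht hs hr hez hP hK h2 C o q hj)

/-- **Energy of the time `k` at the scale `a ≥ k`.** -/
theorem en_cls {p : H401.Num} {s r ez cP P : ℝ} (ht : 0 < p.t) (hs : 0 < s) (hr : 1 ≤ r)
    (hez : 0 < ez) (hP : 0 ≤ P) {n K : ℕ} (hK : K ≤ n) {F2 : ℕ → Pt → ℝ}
    {Q : ℕ → Pt → Prop} (h2 : BSl n ez cP F2 Q) {x : Pt} {U : Tri} {g : ℤ → ℤ → ℝ}
    {u v : ℤ → ℤ → ι → ℝ} (C : H305.Cls K x s r P U g u v) (o : ℤ) {k a : ℕ} (hka : k ≤ a)
    (ha : a ≤ K) :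
    ∑ t ∈ rt (cx K x), ∑ x0 ∈ iv K t, ∑ x1 ∈ iv K (cx K x).1, ∑ z ∈ iv K (cx K x).2.2,
        eT (cS p ez U K v F2 x0 k) (thS p s r o K x u x0) a x1 z ≤
      3 * (beI p r) * (s * 8 ^ K) + 3 * 2 * (P / p.lam s r) * (s * 8 ^ K) := by
  have hr0 : 0 < r := by linarith
  have hl : 0 < p.lam s r := H401.Num.lam_pos (p := p) ht hs hr
  have hbe : 0 < beI p r := Real.rpow_pos_of_pos (div_pos ht hr0) _
  have hpt : ∀ x0 x1 z,
      eT (cS p ez U K v F2 x0 k) (thS p s r o K x u x0) a x1 z =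
      wl p ez U K F2 x1 z k x0 * (v x1 z ⬝ᵥ (beI p r • (1 : Matrix ι ι ℝ) +
        H652.Th (p.lam s r) K (cx K x).2.1 (KT (p.lam s r) u x1) (o - 2) x0 x1 a (ix a z)) *ᵥ
        v x1 z) := by
    intro x0 x1 z
    unfold H505.Sk1.eT
    rw [cS_at p ez U K v F2 x0 (hka.trans ha) x1 z, quad_smul, q_sq hez]
    rfl
  calc ∑ t ∈ rt (cx K x), ∑ x0 ∈ iv K t, ∑ x1 ∈ iv K (cx K x).1, ∑ z ∈ iv K (cx K x).2.2,
        eT (cS p ez U K v F2 x0 k) (thS p s r o K x u x0) a x1 z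
      = ∑ t ∈ rt (cx K x), ∑ x0 ∈ iv K t, ∑ x1 ∈ iv K (cx K x).1, ∑ z ∈ iv K (cx K x).2.2,
      wl p ez U K F2 x1 z k x0 * (v x1 z ⬝ᵥ (beI p r • (1 : Matrix ι ι ℝ) +
        H652.Th (p.lam s r) K (cx K x).2.1 (KT (p.lam s r) u x1) (o - 2) x0 x1 a (ix a z)) *ᵥ
        v x1 z) :=
        sum_congr rfl fun t _ => sum_congr rfl fun x0 _ =>
          sum_congr rfl fun x1 _ => sum_congr rfl fun z _ => hpt x0 x1 z
    _ = ∑ t ∈ rt (cx K x), ∑ x1 ∈ iv K (cx K x).1, ∑ z ∈ iv K (cx K x).2.2, ∑ x0 ∈ iv K t,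
      wl p ez U K F2 x1 z k x0 * (v x1 z ⬝ᵥ (beI p r • (1 : Matrix ι ι ℝ) +
        H652.Th (p.lam s r) K (cx K x).2.1 (KT (p.lam s r) u x1) (o - 2) x0 x1 a (ix a z)) *ᵥ
        v x1 z) := by
        refine sum_congr rfl fun t _ => ?_
        rw [sum_comm]
        exact sum_congr rfl fun x1 _ => sum_comm
    _ ≤ ∑ t ∈ rt (cx K x), ∑ x1 ∈ iv K (cx K x).1, ∑ x3 ∈ iv K (cx K x).2.2,
        (2 ^ K * (beI p r) * (v x1 x3 ⬝ᵥ v x1 x3) + 1 * (2 ^ K * (2 * (p.lam s r)⁻¹ *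
          (v x1 x3 ⬝ᵥ GT u x1 K (cx K x).2.1 *ᵥ v x1 x3)))) := by
        refine sum_le_sum fun t _ => sum_le_sum fun x1 _ => sum_le_sum fun z _ => ?_
        refine (en_lag (tr_T hl K u x1) (v x1 z) zero_le_one hbe.le
            (fun x0 => wl_nonneg hez U K F2 x1 z k x0) hka ha
            (wl_cell hez U hK h2 x1 z k (hka.trans ha)) t (o - 2) x1 (ix a z)).trans
          (le_of_eq ?_)
        ring
    _ = ∑ t ∈ rt (cx K x), (2 ^ K * (beI p r) *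
          ∑ x3 ∈ iv K (cx K x).2.2, ∑ x1 ∈ iv K (cx K x).1, v x1 x3 ⬝ᵥ v x1 x3) +
        ∑ t ∈ rt (cx K x), ∑ x1 ∈ iv K (cx K x).1, ∑ x3 ∈ iv K (cx K x).2.2,
        1 * (2 ^ K * (2 * (p.lam s r)⁻¹ *
          (v x1 x3 ⬝ᵥ GT u x1 K (cx K x).2.1 *ᵥ v x1 x3))) := by
        rw [← sum_add_distrib]
        refine sum_congr rfl fun t _ => ?_
        rw [sum_comm (s := iv K (cx K x).2.2)]
        simp only [mul_sum, ← sum_add_distrib]
    _ ≤ _ := by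
        refine add_le_add ?_ (pot_root' hP C hl (by norm_num))
        rw [sum_const, rt_card, nsmul_eq_mul]
        have h := mul_le_mul_of_nonneg_left (H58.mass_v C)
          (by positivity : (0 : ℝ) ≤ 3 * (2 ^ K * beI p r))
        push_cast
        have e8 : (8 : ℝ) ^ K = 2 ^ K * 4 ^ K := by rw [← mul_pow]; norm_num
        rw [e8]
        linarith

end fam

/-! ### Under the quantifiers -/

/-- the charges, every lag -/
def VarL : Prop := PairQ fun ι _ _ p _ ez _ F2 _ o K x s r U _ u v _ _ _ X =>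
  ∀ q j : ℕ, j ≤ 1 → ∑ t ∈ rt (cx K x), ∑ x0 ∈ iv K t, ∑ k ∈ range (K - q),
    ∑ x1 ∈ iv K (cx K x).1, ∑ z ∈ iv K (cx K x).2.2,
      chg p s r o K x u x0 (k + q) x1 z (cS p ez U K v F2 x0 (k + j) x1 z) ≤
    X * (s * 8 ^ K) * (p.t / r) ^ (p.e0 / 2)

/-- the energies: the time `k` at every scale `a ≥ k` -/
def EnL : Prop := PairQ fun ι _ _ p _ ez _ F2 _ o K x s r U _ u v _ _ _ X =>
  ∀ k a : ℕ, k ≤ a → a ≤ K →
    ∑ t ∈ rt (cx K x), ∑ x0 ∈ iv K t, ∑ x1 ∈ iv K (cx K x).1, ∑ z ∈ iv K (cx K x).2.2,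
      eT (cS p ez U K v F2 x0 k) (thS p s r o K x u x0) a x1 z ≤
    X * (s * 8 ^ K) * (p.t / r) ^ (p.e0 / 2)

theorem varL : VarL := by
  intro a ha ha1
  refine ⟨1, one_pos, fun e0 he0 _ => ⟨1, one_pos, fun k8 _ _ => ⟨1, one_pos, fun k3 _ _ δ hδ =>
    ⟨δ, 1, hδ, one_pos, fun c hc hcc d hd hdd Kt e cP L hK he hcP hL =>
      ⟨122928 * L, by positivity, ?_⟩⟩⟩⟩⟩
  intro t ht ht1 n ez F1 F2 F3 h1 h3 h2 o ho K hKn x ι _ _ s r U g u v hs hr hcls Q1 Q2 Q3 q1 q2 q3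
    hez q j hj
  set p : H401.Num := ⟨a, e0, k8, k3, c, d, Kt, e, cP, L, 1, t⟩ with hp
  have hr0 : 0 < r := by linarith
  have hy0 : 0 < t / r := div_pos ht hr0
  have hbe : 0 < beI p r := Real.rpow_pos_of_pos hy0 _
  have hP : 0 ≤ L * t ^ (2 - c) * √s :=
    mul_nonneg (mul_nonneg (by linarith) (Real.rpow_nonneg ht.le _)) (Real.sqrt_nonneg _)
  refine (var_cls (p := p) ht hs hr hez hP hKn q2 hcls.toCls o q hj).trans ?_
  calc 3 * (40976 * (beI p r)⁻¹) * ((L * t ^ (2 - c) * √s) / p.lam s r) * (s * 8 ^ K)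
      ≤ 3 * (40976 * (beI p r)⁻¹) * (L * ((t / r) ^ (-δ) * (t / r) ^ e0)) * (s * 8 ^ K) := by
        refine mul_le_mul_of_nonneg_right (mul_le_mul_of_nonneg_left ?_ (by positivity))
          (by positivity)
        exact gap_le ht ht1 hs hr (by linarith) hc hcc
    _ = 122928 * L * (t / r) ^ (-δ) * (s * 8 ^ K) * (t / r) ^ (e0 / 2) := by
        have e1 : (t / r) ^ e0 = (t / r) ^ (e0 / 2) * (t / r) ^ (e0 / 2) := by
          rw [← Real.rpow_add hy0]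
          congr 1
          ring
        have e2 : beI p r = (t / r) ^ (e0 / 2) := rfl
        have e3 : 0 < (t / r) ^ (e0 / 2) := Real.rpow_pos_of_pos hy0 _
        rw [e1, e2]
        field_simp
        ring

theorem enL : EnL := by
  intro a ha ha1
  refine ⟨1, one_pos, fun e0 he0 _ => ⟨1, one_pos, fun k8 _ _ => ⟨1, one_pos, fun k3 _ _ δ hδ =>
    ⟨δ, 1, hδ, one_pos, fun c hc hcc d hd hdd Kt e cP L hK he hcP hL =>
      ⟨3 + 6 * L, by positivity, ?_⟩⟩⟩⟩⟩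
  intro t ht ht1 n ez F1 F2 F3 h1 h3 h2 o ho K hKn x ι _ _ s r U g u v hs hr hcls Q1 Q2 Q3 q1 q2 q3
    hez k a' hka hak
  set p : H401.Num := ⟨a, e0, k8, k3, c, d, Kt, e, cP, L, 1, t⟩ with hp
  have hr0 : 0 < r := by linarith
  have hy0 : 0 < t / r := div_pos ht hr0
  have hy1 : t / r ≤ 1 := by
    rw [div_le_one hr0]
    linarith
  have hL0 : 0 ≤ L := by linarith
  have hbe : 0 < beI p r := Real.rpow_pos_of_pos hy0 _
  have hP : 0 ≤ L * t ^ (2 - c) * √s :=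
    mul_nonneg (mul_nonneg (by linarith) (Real.rpow_nonneg ht.le _)) (Real.sqrt_nonneg _)
  have hd1 : 1 ≤ (t / r) ^ (-δ) := by
    rw [Real.rpow_neg hy0.le]
    exact (one_le_inv₀ (Real.rpow_pos_of_pos hy0 _)).2 (Real.rpow_le_one hy0.le hy1 hδ.le)
  refine (en_cls (p := p) ht hs hr hez hP hKn q2 hcls.toCls o hka hak).trans ?_
  have h1' : 3 * beI p r * (s * 8 ^ K) ≤ 3 * (t / r) ^ (-δ) * (s * 8 ^ K) * (t / r) ^ (e0 / 2) := by
    have e2 : beI p r = (t / r) ^ (e0 / 2) := rfl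
    have h0 : 0 ≤ 3 * (s * 8 ^ K) * (t / r) ^ (e0 / 2) := by positivity
    rw [e2]
    nlinarith
  have h2' : 3 * 2 * ((L * t ^ (2 - c) * √s) / p.lam s r) * (s * 8 ^ K) ≤
      6 * L * (t / r) ^ (-δ) * (s * 8 ^ K) * (t / r) ^ (e0 / 2) :=
    calc 3 * 2 * ((L * t ^ (2 - c) * √s) / p.lam s r) * (s * 8 ^ K)
        ≤ 3 * 2 * (L * ((t / r) ^ (-δ) * (t / r) ^ e0)) * (s * 8 ^ K) := by
          refine mul_le_mul_of_nonneg_right (mul_le_mul_of_nonneg_left ?_ (by norm_num))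
            (by positivity)
          exact gap_le ht ht1 hs hr hL0 hc hcc
      _ ≤ 3 * 2 * (L * ((t / r) ^ (-δ) * (t / r) ^ (e0 / 2))) * (s * 8 ^ K) := by
          refine mul_le_mul_of_nonneg_right (mul_le_mul_of_nonneg_left ?_ (by norm_num))
            (by positivity)
          refine mul_le_mul_of_nonneg_left (mul_le_mul_of_nonneg_left ?_
            (Real.rpow_nonneg hy0.le _)) hL0
          exact Real.rpow_le_rpow_of_exponent_ge hy0 hy1 (by linarith)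
      _ = _ := by ring
  calc _ ≤ 3 * (t / r) ^ (-δ) * (s * 8 ^ K) * (t / r) ^ (e0 / 2) +
        6 * L * (t / r) ^ (-δ) * (s * 8 ^ K) * (t / r) ^ (e0 / 2) := add_le_add h1' h2'
    _ = (3 + 6 * L) * (t / r) ^ (-δ) * (s * 8 ^ K) * (t / r) ^ (e0 / 2) := by ring

end

end Vale.Agent.P141.H548
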