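import Vale.Agent.P141.H447.NumI

/-!
# P141, line (A), TI: the numbers of the moving weight, every lag

The slot `φ k x₀ • w` of time `k` (or `k + 1`) against the weight of the scale `k + r`, at fixed
`(x₁, x₃)`; letters of `H447.NumI`.

* `lw`, `lw_cell`, `lag_sum` : weights moved by `r` scales;
* `en_lag` : energy of time `k` at the scale `a ≥ k`;
* `var_lag`, `var_lag'` : the moves, times `k` and `k + 1`;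
* `dr_lag`, `dr_lag'` : the drift.
-/

namespace Vale.Agent.P141.H548

open Finset Matrix
open Vale.Agent.P141.PL (Pt iv ix mem_iv)
open Vale.Agent.P141.H420 (Tr)
open Vale.Agent.P141.H652 (Th eb ah)
open Vale.Agent.P141.H447 (en_I mv_I dr_I cell_up dot_self_nonneg)

noncomputable section

/-! ### Weights moved by `c` scales -/

/-- the weights moved by `c` scales -/
def lw (c : ℕ) (W : ℕ → ℤ → ℝ) (j : ℕ) (x : ℤ) : ℝ := if j < c then 0 else W (j - c) x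

theorem lw_add (c : ℕ) (W : ℕ → ℤ → ℝ) (k : ℕ) (x : ℤ) : lw c W (k + c) x = W k x := by
  unfold lw
  rw [if_neg (by omega), Nat.add_sub_cancel]

theorem lw_nonneg {W : ℕ → ℤ → ℝ} (hW0 : ∀ k x, 0 ≤ W k x) (c k : ℕ) (x : ℤ) :
    0 ≤ lw c W k x := by
  unfold lw
  split_ifs
  · exact le_rfl
  · exact hW0 _ _

theorem lw_cell {K : ℕ} {W : ℕ → ℤ → ℝ} {e : ℝ} (he : 0 ≤ e)
    (hW : ∀ k ≤ K, ∀ j, ∑ x ∈ iv k j, W k x ≤ e * 2 ^ k) (c : ℕ) :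
    ∀ k ≤ K, ∀ j, ∑ x ∈ iv k j, lw c W k x ≤ e * 2 ^ k := by
  intro k hk j
  by_cases hc : k < c
  · have e1 : ∀ x ∈ iv k j, lw c W k x = 0 := fun x _ => by unfold lw; rw [if_pos hc]
    rw [sum_congr rfl e1, sum_const_zero]
    positivity
  · have e1 : ∀ x ∈ iv k j, lw c W k x = W (k - c) x := fun x _ => by
      unfold lw; rw [if_neg hc]
    rw [sum_congr rfl e1]
    have h := cell_up (hW (k - c) (by omega)) c j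
    have e2 : k - c + c = k := by omega
    rwa [e2] at h

theorem sum_shift {f : ℕ → ℝ} (hf : ∀ j, 0 ≤ f j) (m c : ℕ) :
    ∑ k ∈ range (m - c), f (k + c) ≤ ∑ j ∈ range m, f j := by
  have e4 : ∑ k ∈ range (m - c), f (k + c) = ∑ j ∈ (range (m - c)).image (· + c), f j := by
    rw [sum_image]
    intro a _ b _ h
    simpa using h
  rw [e4]
  refine sum_le_sum_of_subset_of_nonneg (fun j hj => ?_) fun j _ _ => hf j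
  rw [mem_image] at hj
  obtain ⟨i, hi, rfl⟩ := hj
  rw [mem_range] at hi ⊢
  omega

/-- time `k` -/
theorem lag_sum {X : Finset ℤ} {K : ℕ} {W F : ℕ → ℤ → ℝ} (hW0 : ∀ k x, 0 ≤ W k x)
    (hF : ∀ k x, 0 ≤ F k x) (r : ℕ) :
    ∑ k ∈ range (K - r), ∑ x ∈ X, W k x * F (k + r) x ≤
      ∑ k ∈ range K, ∑ x ∈ X, lw (r + 1) W (k + 1) x * F k x := by
  refine le_trans (le_of_eq (sum_congr rfl fun k _ => sum_congr rfl fun x _ => ?_))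
    (sum_shift (f := fun j => ∑ x ∈ X, lw (r + 1) W (j + 1) x * F j x)
      (fun j => sum_nonneg fun x _ => mul_nonneg (lw_nonneg hW0 _ _ _) (hF _ _)) K r)
  have e1 := lw_add (r + 1) W k x
  rw [← add_assoc] at e1
  rw [e1]

/-- time `k + 1` -/
theorem lag_sum' {X : Finset ℤ} {K : ℕ} {W F : ℕ → ℤ → ℝ} (hW0 : ∀ k x, 0 ≤ W k x)
    (hF : ∀ k x, 0 ≤ F k x) (r : ℕ) :
    ∑ k ∈ range (K - r), ∑ x ∈ X, W (k + 1) x * F (k + r) x ≤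
      ∑ k ∈ range K, ∑ x ∈ X, lw r W (k + 1) x * F k x := by
  refine le_trans (le_of_eq (sum_congr rfl fun k _ => sum_congr rfl fun x _ => ?_))
    (sum_shift (f := fun j => ∑ x ∈ X, lw r W (j + 1) x * F j x)
      (fun j => sum_nonneg fun x _ => mul_nonneg (lw_nonneg hW0 _ _ _) (hF _ _)) K r)
  have e1 := lw_add r W (k + 1) x
  have e2 : k + 1 + r = k + r + 1 := by omega
  rw [e2] at e1
  rw [e1]

/-! ### The numbers -/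

variable {ι : Type*} [Fintype ι] [DecidableEq ι]

variable {β l : ℝ} {K : ℕ} {M : ℤ}

/-- **Energy of time `k` at the scale `a`.** -/
theorem en_lag {Kr Gr : ℕ → ℤ → Matrix ι ι ℝ} (hT : Tr l K Gr Kr) (w : ι → ℝ) {W : ℤ → ℝ} {e : ℝ}
    (he : 0 ≤ e) (hβ : 0 ≤ β) (hW0 : ∀ x, 0 ≤ W x) {k a : ℕ} (hka : k ≤ a) (ha : a ≤ K)
    (hW : ∀ j, ∑ x ∈ iv k j, W x ≤ e * 2 ^ k) (t c x1 m : ℤ) :
    ∑ x ∈ iv K t, W x * (w ⬝ᵥ (β • (1 : Matrix ι ι ℝ) + Th l K M Kr c x x1 a m) *ᵥ w) ≤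
      e * (2 ^ K * (β * (w ⬝ᵥ w) + 2 * l⁻¹ * (w ⬝ᵥ Gr K M *ᵥ w))) := by
  refine en_I hT w he hβ hW0 ha (fun j => ?_) t c x1 m
  have h := cell_up hW (a - k) j
  rwa [Nat.add_sub_cancel' hka] at h

theorem move_nonneg {Kr Gr : ℕ → ℤ → Matrix ι ι ℝ} (hT : Tr l K Gr Kr) (w : ι → ℝ) (hβ : 0 < β)
    (c x1 x3 : ℤ) (k : ℕ) (x : ℤ) :
    0 ≤ 5 * β⁻¹ * ((ah l K M Kr c x x1 k (ix (k + 1) x3) *ᵥ w) ⬝ᵥ
        (ah l K M Kr c x x1 k (ix (k + 1) x3) *ᵥ w)) +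
      8 * β⁻¹ * (w ⬝ᵥ eb l K M Kr c x x1 (k + 1) (ix (k + 1) x3) *ᵥ w) := by
  have h1 := H420.quad_nonneg (H652.eb_psd (M := M) hT c x x1 (k + 1) (ix (k + 1) x3)) w
  have h2 := dot_self_nonneg (ah l K M Kr c x x1 k (ix (k + 1) x3) *ᵥ w)
  have hb : 0 < β⁻¹ := inv_pos.2 hβ
  positivity

/-- **The moves, lag `r`, time `k`.** -/
theorem var_lag {Kr Gr : ℕ → ℤ → Matrix ι ι ℝ} (hT : Tr l K Gr Kr) (w : ι → ℝ) {W : ℕ → ℤ → ℝ}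
    {e : ℝ} (he : 0 ≤ e) (hβ : 0 < β) (hW0 : ∀ k x, 0 ≤ W k x)
    (hW : ∀ k ≤ K, ∀ j, ∑ x ∈ iv k j, W k x ≤ e * 2 ^ k) (X : Finset ℤ) (c x1 x3 : ℤ) (r : ℕ) :
    ∑ k ∈ range (K - r), ∑ x ∈ X, W k x *
      (5 * β⁻¹ * ((ah l K M Kr c x x1 (k + r) (ix (k + r + 1) x3) *ᵥ w) ⬝ᵥ
        (ah l K M Kr c x x1 (k + r) (ix (k + r + 1) x3) *ᵥ w)) +
      8 * β⁻¹ * (w ⬝ᵥ eb l K M Kr c x x1 (k + r + 1) (ix (k + r + 1) x3) *ᵥ w)) ≤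
    e * (2 ^ K * (40976 * β⁻¹ * l⁻¹ * (w ⬝ᵥ Gr K M *ᵥ w))) :=
  (lag_sum hW0 (move_nonneg hT w hβ c x1 x3) r).trans
    (mv_I hT w he hβ (lw_nonneg hW0 (r + 1))
      (fun k hk => lw_cell he hW (r + 1) k (mem_Icc.1 hk).2) X c x1 x3)

/-- **The moves, lag `r`, time `k + 1`.** -/
theorem var_lag' {Kr Gr : ℕ → ℤ → Matrix ι ι ℝ} (hT : Tr l K Gr Kr) (w : ι → ℝ) {W : ℕ → ℤ → ℝ}
    {e : ℝ} (he : 0 ≤ e) (hβ : 0 < β) (hW0 : ∀ k x, 0 ≤ W k x)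
    (hW : ∀ k ≤ K, ∀ j, ∑ x ∈ iv k j, W k x ≤ e * 2 ^ k) (X : Finset ℤ) (c x1 x3 : ℤ) (r : ℕ) :
    ∑ k ∈ range (K - r), ∑ x ∈ X, W (k + 1) x *
      (5 * β⁻¹ * ((ah l K M Kr c x x1 (k + r) (ix (k + r + 1) x3) *ᵥ w) ⬝ᵥ
        (ah l K M Kr c x x1 (k + r) (ix (k + r + 1) x3) *ᵥ w)) +
      8 * β⁻¹ * (w ⬝ᵥ eb l K M Kr c x x1 (k + r + 1) (ix (k + r + 1) x3) *ᵥ w)) ≤
    e * (2 ^ K * (40976 * β⁻¹ * l⁻¹ * (w ⬝ᵥ Gr K M *ᵥ w))) :=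
  (lag_sum' hW0 (move_nonneg hT w hβ c x1 x3) r).trans
    (mv_I hT w he hβ (lw_nonneg hW0 r)
      (fun k hk => lw_cell he hW r k (mem_Icc.1 hk).2) X c x1 x3)

theorem drift_nonneg {Kr Gr : ℕ → ℤ → Matrix ι ι ℝ} (hT : Tr l K Gr Kr) (w : ι → ℝ)
    (c x1 x3 : ℤ) (k : ℕ) (x : ℤ) :
    0 ≤ w ⬝ᵥ eb l K M Kr c x x1 (k + 1) (ix (k + 1) x3) *ᵥ w :=
  H420.quad_nonneg (H652.eb_psd (M := M) hT c x x1 (k + 1) (ix (k + 1) x3)) w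

/-- **The drift, lag `r`, time `k`.** -/
theorem dr_lag {Kr Gr : ℕ → ℤ → Matrix ι ι ℝ} (hT : Tr l K Gr Kr) (w : ι → ℝ) {W : ℕ → ℤ → ℝ}
    {e : ℝ} (he : 0 ≤ e) (hW0 : ∀ k x, 0 ≤ W k x)
    (hW : ∀ k ≤ K, ∀ j, ∑ x ∈ iv k j, W k x ≤ e * 2 ^ k) (X : Finset ℤ) (c x1 x3 : ℤ) (r : ℕ) :
    ∑ k ∈ range (K - r), ∑ x ∈ X, W k x *
      (w ⬝ᵥ eb l K M Kr c x x1 (k + r + 1) (ix (k + r + 1) x3) *ᵥ w) ≤
    e * (2 ^ K * (2 * l⁻¹ * (w ⬝ᵥ Gr K M *ᵥ w))) :=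
  (lag_sum hW0 (drift_nonneg hT w c x1 x3) r).trans
    (dr_I hT w he (lw_nonneg hW0 (r + 1))
      (fun k hk => lw_cell he hW (r + 1) k (mem_Icc.1 hk).2) X c x1 x3)

/-- **The drift, lag `r`, time `k + 1`.** -/
theorem dr_lag' {Kr Gr : ℕ → ℤ → Matrix ι ι ℝ} (hT : Tr l K Gr Kr) (w : ι → ℝ) {W : ℕ → ℤ → ℝ}
    {e : ℝ} (he : 0 ≤ e) (hW0 : ∀ k x, 0 ≤ W k x)
    (hW : ∀ k ≤ K, ∀ j, ∑ x ∈ iv k j, W k x ≤ e * 2 ^ k) (X : Finset ℤ) (c x1 x3 : ℤ) (r : ℕ) :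
    ∑ k ∈ range (K - r), ∑ x ∈ X, W (k + 1) x *
      (w ⬝ᵥ eb l K M Kr c x x1 (k + r + 1) (ix (k + r + 1) x3) *ᵥ w) ≤
    e * (2 ^ K * (2 * l⁻¹ * (w ⬝ᵥ Gr K M *ᵥ w))) :=
  (lag_sum' hW0 (drift_nonneg hT w c x1 x3) r).trans
    (dr_I hT w he (lw_nonneg hW0 r)
      (fun k hk => lw_cell he hW r k (mem_Icc.1 hk).2) X c x1 x3)

end

end Vale.Agent.P141.H548
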