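import Vale.Agent.P141.H548.LagU
import Vale.Agent.P141.H419.WFamA

/-!
# P141, line (A), increasing part: the numbers of the families of the hub `x1` at class letters

Weight `TL`, drift `eL`, move `dL` of `H652.ThetaW` at the hub `x1`, path `cS`:

* `nm_le` : variation and drift of a path, lag `q`, below the charges;
* `own_c`, `own_c1`, `sq_c` : the numbers of `H419.WFamR` for the path and the shifted path below
  `vN`, `oN` and the births.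
-/

namespace Vale.Agent.P141.H548

open Finset Matrix
open Vale.Agent.P141.PL (Pt iv ix cx mem_iv)
open Vale.Agent.P141.PL.H315 (Tri)
open Vale.Agent.P141.H401 (StQ)
open Vale.Agent.P141.H677 (rt KT GT tr_T)
open Vale.Agent.P141.H652 (eb ah Th)
open Vale.Agent.P141.H505.Sk1 (eT eM dTh)
open Vale.Agent.P141.H408
open Vale.Agent.P141.H808
open Vale.Agent.P141.H886 (NumF SumQ SumU SumL)
open Vale.Agent.P141.H419.WFamR (Wn Dn En nmH nmD nmE nmB c1 P1)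
open Vale.Agent.P141.H912 (OwL wS)

noncomputable section

open scoped Classical

set_option linter.unusedVariables false

section fam

variable {ι : Type} [Fintype ι] [DecidableEq ι]

/-- the weight at the hub -/
abbrev TL (p : H401.Num) (s r : ℝ) (o : ℤ) (K : ℕ) (x : Pt) (u : ℤ → ℤ → ι → ℝ) (x0 : ℤ) :
    ℕ → ℤ → ℤ → Matrix ι ι ℝ :=
  fun a x1 m => Th (p.lam s r) K (cx K x).2.1 (KT (p.lam s r) u x1) (o - 2) x0 x1 a m

/-- the drift at the hub -/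
abbrev eL (p : H401.Num) (s r : ℝ) (o : ℤ) (K : ℕ) (x : Pt) (u : ℤ → ℤ → ι → ℝ) (x0 : ℤ) :
    ℕ → ℤ → ℤ → Matrix ι ι ℝ :=
  fun a x1 m => eb (p.lam s r) K (cx K x).2.1 (KT (p.lam s r) u x1) (o - 2) x0 x1 (a + 1) m

/-- the move at the hub -/
abbrev dL (p : H401.Num) (s r : ℝ) (o : ℤ) (K : ℕ) (x : Pt) (u : ℤ → ℤ → ι → ℝ) (x0 : ℤ) :
    ℕ → ℤ → ℤ → Matrix ι ι ℝ :=
  fun a x1 m => ah (p.lam s r) K (cx K x).2.1 (KT (p.lam s r) u x1) (o - 2) x0 x1 a m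

/-- **Variation and drift of a path, lag `q`, are below the charges.** -/
theorem nm_le {p : H401.Num} (ht : 0 < p.t) (ht1 : p.t ≤ 1) (he0 : 0 ≤ p.e0) {s r : ℝ}
    (hs : 0 < s) (hr : 1 ≤ r) (o : ℤ) (K : ℕ) (x : Pt) (u : ℤ → ℤ → ι → ℝ) (x0 : ℤ)
    (c : ℕ → ℤ → ℤ → ι → ℝ) (q : ℕ) :
    4 * (beI p r)⁻¹ * nmD K (cx K x).2.2 (cx K x).1 (dL p s r o K x u x0) c q +
      8 * (beI p r)⁻¹ * nmE K (cx K x).2.2 (cx K x).1 (eL p s r o K x u x0) c q ≤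
    ∑ k ∈ range (K - q), ∑ x1 ∈ iv K (cx K x).1, ∑ z ∈ iv K (cx K x).2.2,
      chg p s r o K x u x0 (k + q) x1 z (c k x1 z) := by
  have hbe : 0 < beI p r := Real.rpow_pos_of_pos (div_pos ht (by linarith)) _
  have hb : 0 < (beI p r)⁻¹ := inv_pos.2 hbe
  unfold H419.WFamR.nmD H419.WFamR.nmE H419.WFamR.Dn H419.WFamR.En
  rw [range_eq_Ico]
  simp only [mul_sum, ← sum_add_distrib]
  refine sum_le_sum fun k _ => sum_le_sum fun x1 _ => sum_le_sum fun z _ => ?_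
  have h3 : 0 ≤ (dN p s r o K x u x0 (k + q) x1 z *ᵥ c k x1 z) ⬝ᵥ
      (dN p s r o K x u x0 (k + q) x1 z *ᵥ c k x1 z) := H447.dot_self_nonneg _
  have h4 := mul_nonneg hb.le h3
  unfold chg
  linarith

theorem nmD_nn {p : H401.Num} {s r : ℝ} (o : ℤ) (K : ℕ) (x : Pt) (u : ℤ → ℤ → ι → ℝ) (x0 : ℤ)
    (c : ℕ → ℤ → ℤ → ι → ℝ) (q : ℕ) :
    0 ≤ nmD K (cx K x).2.2 (cx K x).1 (dL p s r o K x u x0) c q :=
  H419.WFamR.nmD_nonneg K _ _ c q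

theorem nmE_nn {p : H401.Num} (ht : 0 < p.t) {s r : ℝ} (hs : 0 < s) (hr : 1 ≤ r) (o : ℤ) (K : ℕ)
    (x : Pt) (u : ℤ → ℤ → ι → ℝ) (x0 : ℤ) (c : ℕ → ℤ → ℤ → ι → ℝ) (q : ℕ) :
    0 ≤ nmE K (cx K x).2.2 (cx K x).1 (eL p s r o K x u x0) c q :=
  H419.WFamR.nmE_nonneg (fun k x1 m => H652.eb_psd (M := (cx K x).2.1)
    (tr_T (H401.Num.lam_pos (p := p) ht hs hr) K u x1) (o - 2) x0 x1 (k + 1) m) K _ _ c q

/-- the charges are below `vN`, time `k + j` -/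
theorem chg_vN {p : H401.Num} (ht : 0 < p.t) {s r : ℝ} (hs : 0 < s) (hr : 1 ≤ r) {n : ℕ} {ez : ℝ}
    {F1 F2 F3 : ℕ → Pt → ℝ} {o : ℤ} {K : ℕ} {x : Pt} {U : Tri} {g : ℤ → ℤ → ℝ}
    {u v : ℤ → ℤ → ι → ℝ} {Q1 Q2 Q3 : ℕ → Pt → Prop} (x0 : ℤ) (j q : ℕ)
    {c : ℕ → ℤ → ℤ → ι → ℝ} (hc : ∀ k < K - q, c k = cS p ez U K v F2 x0 (k + j)) :
    ∑ k ∈ range (K - q), ∑ x1 ∈ iv K (cx K x).1, ∑ z ∈ iv K (cx K x).2.2,
      chg p s r o K x u x0 (k + q) x1 z (c k x1 z) ≤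
    vN j q ι p n ez F1 F2 F3 o K x s r U g u v Q1 Q2 Q3 x0 := by
  unfold vN
  refine sum_le_sum fun k hk => sum_le_sum fun x1 _ => sum_le_sum fun z _ => ?_
  rw [hc k (mem_range.1 hk)]
  have h1 := zm_nonneg ht hs hr o K x u x0 (k + q) x1 z (cS p ez U K v F2 x0 (k + j) x1 z)
  have h2 := ze_nonneg ht hs hr o K x u x0 (k + q) x1 z (cS p ez U K v F2 x0 (k + j) x1 z)
  have h3 := zd_nonneg ht hs hr o K x u x0 (k + q) x1 z (cS p ez U K v F2 x0 (k + j) x1 z)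
  have h4 := zq_nonneg ht hs hr o K x u x0 (k + q) x1 z (cS p ez U K v F2 x0 (k + j) x1 z)
  have h5 : 0 ≤ kinds p s r o K x u x0 (k + q) x1 z (cS p ez U K v F2 x0 (k + j) x1 z) := by
    unfold kinds
    linarith
  linarith

/-- the start energy of the path vanishes -/
theorem nmH_c (p : H401.Num) (s r : ℝ) (ez : ℝ) (U : Tri) (v : ℤ → ℤ → ι → ℝ)
    (F2 : ℕ → Pt → ℝ) (o : ℤ) (K : ℕ) (x : Pt) (u : ℤ → ℤ → ι → ℝ) (x0 : ℤ) (q : ℕ) :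
    nmH K (cx K x).2.2 (cx K x).1 (beI p r) (TL p s r o K x u x0) (cS p ez U K v F2 x0) q =
      0 := by
  unfold H419.WFamR.nmH H419.WFamR.Wn
  refine sum_eq_zero fun x1 _ => sum_eq_zero fun z _ => ?_
  rw [cS_zero, mulVec_zero, dotProduct_zero]

/-- the start energy of the shifted path -/
theorem nmH_c1 {p : H401.Num} {s r : ℝ} {n : ℕ} {ez : ℝ}
    {F1 F2 F3 : ℕ → Pt → ℝ} {o : ℤ} {K : ℕ} {x : Pt} {U : Tri} {g : ℤ → ℤ → ℝ}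
    {u v : ℤ → ℤ → ι → ℝ} {Q1 Q2 Q3 : ℕ → Pt → Prop} (x0 : ℤ) {q : ℕ} (hq : q ≤ K) :
    nmH K (cx K x).2.2 (cx K x).1 (beI p r) (TL p s r o K x u x0)
        (c1 K (cS p ez U K v F2 x0)) q ≤
      oN q ι p n ez F1 F2 F3 o K x s r U g u v Q1 Q2 Q3 x0 := by
  have e1 : c1 K (cS p ez U K v F2 x0) 0 = cS p ez U K v F2 x0 1 := by
    unfold H419.WFamR.c1
    rw [Nat.zero_add]
    funext x1 z
    show C1 p ez U K v F2 x0 (min (min 1 K) K) z x1 = C1 p ez U K v F2 x0 (min 1 K) z x1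
    rw [min_eq_left (min_le_right 1 K)]
  unfold H419.WFamR.nmH oN
  rw [e1, min_eq_left hq]
  exact le_rfl

/-- **Own numbers of the path, lag `q`.** -/
theorem own_c {p : H401.Num} (ht : 0 < p.t) (ht1 : p.t ≤ 1) (he0 : 0 ≤ p.e0) {s r : ℝ}
    (hs : 0 < s) (hr : 1 ≤ r) {n : ℕ} {ez : ℝ}
    {F1 F2 F3 : ℕ → Pt → ℝ} {o : ℤ} {K : ℕ} {x : Pt} {U : Tri} {g : ℤ → ℤ → ℝ}
    {u v : ℤ → ℤ → ι → ℝ} {Q1 Q2 Q3 : ℕ → Pt → Prop} (x0 : ℤ) (J : ℕ) {B : ℕ → ℝ} (q : ℕ)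
    (hB : 0 ≤ B q) :
    OwL J (nmH K (cx K x).2.2 (cx K x).1 (beI p r) (TL p s r o K x u x0)
        (cS p ez U K v F2 x0))
      (fun q => 2 * (beI p r)⁻¹ * nmD K (cx K x).2.2 (cx K x).1 (dL p s r o K x u x0)
        (cS p ez U K v F2 x0) q)
      (fun q => 2 * nmE K (cx K x).2.2 (cx K x).1 (eL p s r o K x u x0)
        (cS p ez U K v F2 x0) q) (fun q => ((J : ℝ) + 1) * B q) q ≤
    32 * ((J : ℝ) + 1) ^ 3 *
      (vN 0 q ι p n ez F1 F2 F3 o K x s r U g u v Q1 Q2 Q3 x0 + B q) := by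
  have hbe : 0 < beI p r := Real.rpow_pos_of_pos (div_pos ht (by linarith)) _
  have hb1 : 1 ≤ (beI p r)⁻¹ := (one_le_inv₀ hbe).2 (beI_le_one ht ht1 he0 hr)
  have h1 := nm_le ht ht1 he0 hs hr o K x u x0 (cS p ez U K v F2 x0) q
  have h2 := chg_vN (n := n) (ez := ez) (F1 := F1) (F2 := F2) (F3 := F3) (o := o) (K := K)
    (x := x) (U := U) (g := g) (u := u) (v := v) (Q1 := Q1) (Q2 := Q2) (Q3 := Q3)
    ht hs hr x0 0 q (c := cS p ez U K v F2 x0) (fun k _ => rfl)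
  have h3 := nmD_nn (p := p) (s := s) (r := r) o K x u x0 (cS p ez U K v F2 x0) q
  have h4 := nmE_nn ht hs hr o K x u x0 (cS p ez U K v F2 x0) q
  unfold H912.OwL H419.TVpg.Ow
  rw [nmH_c]
  set D := nmD K (cx K x).2.2 (cx K x).1 (dL p s r o K x u x0) (cS p ez U K v F2 x0) q
  set E := nmE K (cx K x).2.2 (cx K x).1 (eL p s r o K x u x0) (cS p ez U K v F2 x0) q
  set V := vN 0 q ι p n ez F1 F2 F3 o K x s r U g u v Q1 Q2 Q3 x0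
  have h5 : 4 * (beI p r)⁻¹ * D + 8 * (beI p r)⁻¹ * E ≤ V := h1.trans h2
  have h6 : E ≤ (beI p r)⁻¹ * E := by nlinarith
  have hD : 0 ≤ (beI p r)⁻¹ * D := by positivity
  have hJ : (1 : ℝ) ≤ (J : ℝ) + 1 := by
    have : (0 : ℝ) ≤ J := Nat.cast_nonneg J
    linarith
  have hJ3 : (J : ℝ) + 1 ≤ ((J : ℝ) + 1) ^ 3 := by
    nlinarith [mul_self_nonneg ((J : ℝ) + 1), sq_nonneg ((J : ℝ))]
  have hJp : (0 : ℝ) < ((J : ℝ) + 1) ^ 3 := by positivity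
  have a1 : 32 * ((J : ℝ) + 1) ^ 3 * (2 * (beI p r)⁻¹ * D) + 1 / 2 * ((J : ℝ) + 1) * (2 * E) ≤
      32 * ((J : ℝ) + 1) ^ 3 * V := by
    have b1 : 1 / 2 * ((J : ℝ) + 1) * (2 * E) ≤ ((J : ℝ) + 1) ^ 3 * ((beI p r)⁻¹ * E) := by
      calc 1 / 2 * ((J : ℝ) + 1) * (2 * E) = ((J : ℝ) + 1) * E := by ring
        _ ≤ ((J : ℝ) + 1) ^ 3 * E := mul_le_mul_of_nonneg_right hJ3 h4
        _ ≤ _ := mul_le_mul_of_nonneg_left h6 hJp.le
    have b2 : ((J : ℝ) + 1) ^ 3 * (2 * ((beI p r)⁻¹ * D) + (beI p r)⁻¹ * E) ≤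
        ((J : ℝ) + 1) ^ 3 * V := by
      refine mul_le_mul_of_nonneg_left ?_ hJp.le
      have : 0 ≤ (beI p r)⁻¹ * E := by positivity
      linarith
    have b3 : 0 ≤ ((J : ℝ) + 1) ^ 3 * ((beI p r)⁻¹ * E) := by positivity
    nlinarith
  have a2 : ((J : ℝ) + 1) * B q ≤ 32 * ((J : ℝ) + 1) ^ 3 * B q := by
    refine mul_le_mul_of_nonneg_right ?_ hB
    linarith
  linarith

end fam

end

end Vale.Agent.P141.H548
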